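import Mathlib

/-! Two-way finite automata with endmarkers. -/

namespace Vale.Agent.P343

/-- tape symbols: the two endmarkers and the input letters -/
inductive TapeSym (A : Type) where
  | lend : TapeSym A
  | rend : TapeSym A
  | letter : A → TapeSym A

/-- head moves -/
inductive Move where
  | left : Move
  | stay : Move
  | right : Move

/-- `m.Moves i j`: the move `m` takes the head from cell `i` to cell `j` -/
def Move.Moves : Move → ℕ → ℕ → Prop
  | .left, i, j => j + 1 = i
  | .stay, i, j => j = i
  | .right, i, j => j = i + 1

/-- A two-way nondeterministic finite automaton with input alphabet `A` and state set `Q`. -/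
structure TwoNFA (A Q : Type) where
  init : Q
  accept : Set Q
  trans : Q → TapeSym A → Set (Q × Move)
  no_left : ∀ q q', (q', Move.left) ∉ trans q TapeSym.lend
  no_right : ∀ q q', (q', Move.right) ∉ trans q TapeSym.rend

/-- the tape holding the word `w` between the endmarkers; cell `0` is the left endmarker -/
def tape {A : Type} (w : List A) : List (TapeSym A) :=
  TapeSym.lend :: (w.map TapeSym.letter ++ [TapeSym.rend])

/-- one step between configurations (state, head position) on input `w` -/
def TwoNFA.Step {A Q : Type} (M : TwoNFA A Q) (w : List A) (c c' : Q × ℕ) : Prop :=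
  ∃ s m, (tape w)[c.2]? = some s ∧ (c'.1, m) ∈ M.trans c.1 s ∧ m.Moves c.2 c'.2

/-- the words on which some finite computation reaches an accepting state -/
def TwoNFA.lang {A Q : Type} (M : TwoNFA A Q) : Set (List A) :=
  {w | ∃ q ∈ M.accept, ∃ i, Relation.ReflTransGen (M.Step w) (M.init, 0) (q, i)}

/-- at most one transition for each state and symbol -/
def TwoNFA.Deterministic {A Q : Type} (M : TwoNFA A Q) : Prop :=
  ∀ q s, (M.trans q s).Subsingleton

/-- the head never moves left -/
def TwoNFA.OneWay {A Q : Type} (M : TwoNFA A Q) : Prop :=
  ∀ q s q', (q', Move.left) ∉ M.trans q s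

end Vale.Agent.P343
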