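import Vale.Agent.P343.Step
import Vale.Agent.P343.Defs

/-! From two-way automata to behaviours, and the one-way liveness automaton. -/

namespace Vale.Agent.P343

open Relation

variable {A Q : Type}

inductive Out (D : TwoNFA A Q) (s : TapeSym A) : Q → Option Q × Bool → Prop
  | acc {q : Q} : q ∈ D.accept → Out D s q (none, true)
  | stay {q q' : Q} {o : Option Q × Bool} : q ∉ D.accept → (q', Move.stay) ∈ D.trans q s →
      Out D s q' o → Out D s q o
  | left {q q' : Q} : q ∉ D.accept → (q', Move.left) ∈ D.trans q s → Out D s q (some q', false)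
  | right {q q' : Q} : q ∉ D.accept → (q', Move.right) ∈ D.trans q s → Out D s q (some q', true)

def beh (D : TwoNFA A Q) (s : TapeSym A) : Beh (Option Q × Bool) Prod.snd :=
  ⟨fun p o => (p = (none, true) ∧ o = (none, true)) ∨ ∃ q, p.1 = some q ∧ Out D s q o⟩

theorem Out.det {D : TwoNFA A Q} (hD : D.Deterministic) {s : TapeSym A} {q : Q}
    {o o' : Option Q × Bool} (h : Out D s q o) (h' : Out D s q o') : o = o' := by
  induction h with
  | acc a => cases h' <;> first | rfl | contradiction
  | stay a b _ ih =>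
    cases h' with
    | acc c => contradiction
    | stay _ c d => cases hD _ _ b c; exact ih d
    | left _ c => cases hD _ _ b c
    | right _ c => cases hD _ _ b c
  | left a b =>
    cases h' with
    | acc c => contradiction
    | stay _ c d => cases hD _ _ b c
    | left _ c => cases hD _ _ b c; rfl
    | right _ c => cases hD _ _ b c
  | right a b =>
    cases h' with
    | acc c => contradiction
    | stay _ c d => cases hD _ _ b c
    | left _ c => cases hD _ _ b c
    | right _ c => cases hD _ _ b c; rfl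

theorem beh_det {D : TwoNFA A Q} (hD : D.Deterministic) (s : TapeSym A) : Det (beh D s) := by
  rintro p o o' (⟨rfl, rfl⟩ | ⟨q, h1, h2⟩) (⟨h3, rfl⟩ | ⟨q', h3, h4⟩)
  · rfl
  · cases h3
  · rw [h3] at h1; cases h1
  · rw [h1] at h3
    cases h3
    exact h2.det hD h4

theorem tape_length (w : List A) : (tape w).length = w.length + 2 := by simp [tape]

theorem tape_zero (w : List A) : (tape w)[0]? = some TapeSym.lend := rfl

theorem tape_last (w : List A) : (tape w)[w.length + 1]? = some TapeSym.rend := by
  simp [tape]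

theorem tape_mid (w : List A) {i : ℕ} (h : i < w.length) :
    (tape w)[i + 1]? = some (TapeSym.letter w[i]) := by
  simp [tape, List.getElem?_append_left, h]

theorem tape_lt {w : List A} {i : ℕ} {s : TapeSym A} (h : (tape w)[i]? = some s) :
    i < w.length + 2 := by
  rw [← tape_length]
  exact (List.getElem?_eq_some_iff.1 h).1

theorem out_sound {D : TwoNFA A Q} {w : List A} {s : TapeSym A} {i : ℕ}
    (hs : (tape w)[i]? = some s) {q : Q} {o : Option Q × Bool} (h : Out D s q o)
    (hr : ReflTransGen (D.Step w) (D.init, 0) (q, i)) :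
    (o.1 = none → w ∈ D.lang) ∧ ∀ q', o.1 = some q' →
      ∃ i', ReflTransGen (D.Step w) (D.init, 0) (q', i') ∧
        (if o.2 then i + 1 else i) = if o.2 then i' else i' + 1 := by
  induction h with
  | acc a => exact ⟨fun _ => ⟨_, a, i, hr⟩, fun _ e => by cases e⟩
  | stay _ b _ ih => exact ih (hr.tail ⟨s, _, hs, b, rfl⟩)
  | left _ b =>
    refine ⟨fun e => (by cases e), fun _ e => ?_⟩
    cases e
    cases i with
    | zero =>
      rw [tape_zero] at hs
      cases hs
      exact absurd b (D.no_left _ _)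
    | succ i => exact ⟨i, hr.tail ⟨s, _, hs, b, rfl⟩, rfl⟩
  | right _ b =>
    refine ⟨fun e => (by cases e), fun _ e => ?_⟩
    cases e
    exact ⟨i + 1, hr.tail ⟨s, _, hs, b, rfl⟩, rfl⟩

theorem lang_of_reach {D : TwoNFA A Q} {w : List A} {c : ℕ × Option Q × Bool}
    (h : ReflTransGen (Step ((tape w).map (beh D))) (0, some D.init, true) c) :
    (c.2.1 = none → w ∈ D.lang) ∧ ∀ q, c.2.1 = some q →
      ∃ i, ReflTransGen (D.Step w) (D.init, 0) (q, i) ∧ c.1 = if c.2.2 then i else i + 1 := by
  induction h with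
  | refl =>
    refine ⟨fun e => (by cases e), fun q e => ?_⟩
    cases e
    exact ⟨0, ReflTransGen.refl, rfl⟩
  | @tail c c' _ hs ih =>
    obtain ⟨i, x, h1, h2, h3, h4⟩ := hs
    rw [List.getElem?_map, Option.map_eq_some_iff] at h1
    obtain ⟨s, h1, rfl⟩ := h1
    rcases h2 with ⟨a, b⟩ | ⟨q, a, b⟩
    · refine ⟨fun _ => ih.1 (by rw [a]), fun q e => ?_⟩
      rw [b] at e
      cases e
    · obtain ⟨i', e1, e2⟩ := ih.2 q a
      obtain rfl : i' = i := by
        rw [h3] at e2
        split_ifs at e2 <;> omega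
      rw [h4]
      exact out_sound h1 b e1

theorem token_reach (D : TwoNFA A Q) (w : List A) (n : ℕ) : ∀ k, k + n = w.length + 2 →
    ReflTransGen (Step ((tape w).map (beh D))) (k, none, true) (w.length + 2, none, true) := by
  induction n with
  | zero => intro k hk; rw [← hk]; exact ReflTransGen.refl
  | succ n ih =>
    intro k hk
    refine ReflTransGen.head ?_ (ih (k + 1) (by omega))
    have hk' : k < (tape w).length := by rw [tape_length]; omega
    exact ⟨k, beh D (tape w)[k], by simp [hk'], Or.inl ⟨rfl, rfl⟩, rfl, rfl⟩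

theorem reach_of_acc {D : TwoNFA A Q} {w : List A} {qa : Q} {ia : ℕ} (ha : qa ∈ D.accept)
    {c : Q × ℕ} (h : ReflTransGen (D.Step w) c (qa, ia)) : c.2 < w.length + 2 → ∀ d : Bool,
    ReflTransGen (Step ((tape w).map (beh D))) (if d then c.2 else c.2 + 1, some c.1, d)
      (w.length + 2, none, true) := by
  have hacc : ∀ (q : Q) (i : ℕ), q ∈ D.accept → i < w.length + 2 → ∀ d : Bool,
      ReflTransGen (Step ((tape w).map (beh D))) (if d then i else i + 1, some q, d)
        (w.length + 2, none, true) := by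
    intro q i hq hi d
    refine ReflTransGen.head ?_ (token_reach D w (w.length + 1 - i) (i + 1) (by omega))
    have hk' : i < (tape w).length := by rw [tape_length]; omega
    exact ⟨i, beh D (tape w)[i], by simp [hk'], Or.inr ⟨q, rfl, Out.acc hq⟩, rfl, rfl⟩
  induction h using ReflTransGen.head_induction_on with
  | refl => exact hacc _ _ ha
  | @head c c' hs _ ih =>
    obtain ⟨q, i⟩ := c
    obtain ⟨q', i'⟩ := c'
    intro hi d
    by_cases hq : q ∈ D.accept
    · exact hacc _ _ hq hi d
    obtain ⟨s, m, h1, h2, h3⟩ := hs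
    simp only at h1 h2 h3 hi ih ⊢
    have h1' : ((tape w).map (beh D))[i]? = some (beh D s) := by
      rw [List.getElem?_map, h1]; rfl
    cases m with
    | left =>
      obtain rfl : i' + 1 = i := h3
      exact ReflTransGen.head ⟨_, _, h1', Or.inr ⟨q, rfl, Out.left hq h2⟩, rfl, rfl⟩
        (ih (by omega) false)
    | right =>
      obtain rfl : i' = i + 1 := h3
      have : i ≠ w.length + 1 := by
        rintro rfl
        rw [tape_last] at h1
        cases h1
        exact D.no_right _ _ h2
      exact ReflTransGen.head ⟨_, _, h1', Or.inr ⟨q, rfl, Out.right hq h2⟩, rfl, rfl⟩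
        (ih (by omega) true)
    | stay =>
      obtain rfl : i' = i := h3
      rcases (ih hi d).cases_head with e | ⟨c, ⟨j, x, e1, e2, e3, e4⟩, e5⟩
      · cases congrArg (fun c => c.2.1) e
      · obtain rfl : j = i' := by
          simp only at e3
          split_ifs at e3 <;> omega
        rw [h1'] at e1
        cases e1
        refine ReflTransGen.head ⟨_, _, h1', ?_, rfl, e4⟩ e5
        rcases e2 with ⟨a, _⟩ | ⟨q2, a, b⟩
        · cases a
        · cases a
          exact Or.inr ⟨q, rfl, Out.stay hq h2 b⟩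

theorem mem_lang_iff (D : TwoNFA A Q) (w : List A) :
    w ∈ D.lang ↔ (((tape w).map (beh D)).prod).r (some D.init, true) (none, true) := by
  rw [← prodL_eq_prod]
  constructor
  · rintro ⟨q, hq, i, h⟩
    have := reach_of_acc hq h (by simp) true
    simpa [prodL, tape_length] using this
  · intro h
    exact (lang_of_reach h).1 rfl

/-- the behaviour of a word -/
def wbeh (D : TwoNFA A Q) (w : List A) : Beh (Option Q × Bool) Prod.snd :=
  (w.map fun a => beh D (TapeSym.letter a)).prod

theorem wbeh_append (D : TwoNFA A Q) (u v : List A) :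
    wbeh D (u ++ v) = wbeh D u * wbeh D v := by
  simp [wbeh]

theorem mem_lang_iff' (D : TwoNFA A Q) (w : List A) :
    w ∈ D.lang ↔ (beh D TapeSym.lend * (wbeh D w * beh D TapeSym.rend)).r
      (some D.init, true) (none, true) := by
  rw [mem_lang_iff]
  simp [tape, wbeh, Function.comp_def]

theorem wbeh_det {D : TwoNFA A Q} (hD : D.Deterministic) (w : List A) : Det (wbeh D w) := by
  induction w with
  | nil => exact det_one
  | cons a w ih => exact (beh_det hD _).mul ih

variable {X : Type}

/-- the one-way liveness automaton -/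
def owl (X : Type) : TwoNFA (Rl X) (Option (Option X)) where
  init := none
  accept := {some none}
  trans q s := {t | (q = none ∧ s = TapeSym.lend ∧ ∃ a, t = (some (some a), Move.right)) ∨
    (∃ a b r, q = some (some a) ∧ s = TapeSym.letter r ∧ r.r a b ∧
      t = (some (some b), Move.right)) ∨
    (∃ a, q = some (some a) ∧ s = TapeSym.rend ∧ t = (some none, Move.stay))}
  no_left := by
    rintro q q' (⟨_, _, a, h⟩ | ⟨a, b, r, _, _, _, h⟩ | ⟨a, _, _, h⟩) <;> cases h
  no_right := by
    rintro q q' (⟨_, h, _⟩ | ⟨a, b, r, _, h, _⟩ | ⟨a, _, _, h⟩) <;> cases h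

theorem owl_oneWay : (owl X).OneWay := by
  rintro q s q' (⟨_, _, a, h⟩ | ⟨a, b, r, _, _, _, h⟩ | ⟨a, _, _, h⟩) <;> cases h

theorem owl_inv {w : List (Rl X)} {c : Option (Option X) × ℕ}
    (h : ReflTransGen ((owl X).Step w) ((owl X).init, 0) c) :
    (c.1 = none ∧ c.2 = 0) ∨ (∃ a b i, c.1 = some (some b) ∧ c.2 = i + 1 ∧
      (w.take i).prod.r a b) ∨ ∃ a b, w.prod.r a b := by
  induction h with
  | refl => exact Or.inl ⟨rfl, rfl⟩
  | @tail c c' _ hs ih =>
    obtain ⟨q, i⟩ := c
    obtain ⟨q', i'⟩ := c'
    obtain ⟨s, m, h1, h2, h3⟩ := hs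
    simp only at h1 h2 h3 ih ⊢
    rcases ih with ⟨rfl, rfl⟩ | ⟨a, b, k, rfl, rfl, e⟩ | e
    · rcases h2 with ⟨_, _, a, h⟩ | ⟨a, b, r, h, _⟩ | ⟨a, h, _⟩
      · cases h
        exact Or.inr (Or.inl ⟨a, a, 0, rfl, h3, rfl⟩)
      · cases h
      · cases h
    · have hk := tape_lt h1
      rcases h2 with ⟨h, _⟩ | ⟨a', b', r, h, rfl, h4, h5⟩ | ⟨a', h, rfl, h5⟩
      · cases h
      · cases h
        cases h5
        have hk' : k < w.length := by
          by_contra hn
          obtain rfl : k = w.length := by omega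
          rw [tape_last] at h1
          cases h1
        rw [tape_mid w hk'] at h1
        cases h1
        refine Or.inr (Or.inl ⟨a, b', k + 1, rfl, h3, ?_⟩)
        rw [List.prod_take_succ _ _ hk']
        exact ⟨_, e, h4⟩
      · have hk' : k = w.length := by
          by_contra hn
          rw [tape_mid w (by omega)] at h1
          cases h1
        subst hk'
        rw [List.take_length] at e
        exact Or.inr (Or.inr ⟨_, _, e⟩)
    · exact Or.inr (Or.inr e)

theorem owl_reach (w : List (Rl X)) (i : ℕ) : i ≤ w.length → ∀ a b, (w.take i).prod.r a b →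
    ReflTransGen ((owl X).Step w) ((owl X).init, 0) (some (some b), i + 1) := by
  induction i with
  | zero =>
    intro _ a b _
    exact ReflTransGen.single ⟨_, Move.right, tape_zero w, Or.inl ⟨rfl, rfl, b, rfl⟩, rfl⟩
  | succ i ih =>
    intro hi a b h
    rw [List.prod_take_succ _ _ hi] at h
    obtain ⟨c, h1, h2⟩ := h
    exact (ih (by omega) a c h1).tail ⟨_, Move.right, tape_mid w hi,
      Or.inr (Or.inl ⟨c, b, _, rfl, rfl, h2, rfl⟩), rfl⟩

theorem owl_lang (w : List (Rl X)) : w ∈ (owl X).lang ↔ ∃ a b, w.prod.r a b := by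
  constructor
  · rintro ⟨q, hq, i, h⟩
    obtain rfl : q = some none := hq
    rcases owl_inv h with ⟨e, _⟩ | ⟨a, b, i, e, _⟩ | e
    · cases e
    · cases e
    · exact e
  · rintro ⟨a, b, h⟩
    refine ⟨some none, rfl, w.length + 1, ?_⟩
    exact (owl_reach w w.length le_rfl a b (by rwa [List.take_length])).tail
      ⟨_, Move.stay, tape_last w, Or.inr (Or.inr ⟨b, rfl, rfl, rfl⟩), rfl⟩

/-- the cover given by a deterministic automaton for one-way liveness -/
def autCover [Finite Q] (D : TwoNFA (Rl X) Q) (hD : D.Deterministic)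
    (hL : D.lang = (owl X).lang) : Cover X where
  P := Option Q × Bool
  fin := inferInstance
  dir := Prod.snd
  S :=
    { carrier := {z | ∃ w, z = (wbeh D w, w.prod)}
      one_mem' := ⟨[], rfl⟩
      mul_mem' := by
        rintro _ _ ⟨u, rfl⟩ ⟨v, rfl⟩
        exact ⟨u ++ v, by rw [wbeh_append, List.prod_append]; rfl⟩ }
  det := by
    rintro _ ⟨w, rfl⟩
    exact wbeh_det hD w
  fn := by
    rintro _ ⟨u, rfl⟩ _ ⟨v, rfl⟩ h
    have key : ∀ (w : List (Rl X)) (a b : X), w.prod.r a b ↔
        [(⟨fun c d => c = a ∧ d = a⟩ : Rl X)] ++ w ++ [⟨fun c d => c = b ∧ d = b⟩] ∈ D.lang := by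
      intro w a b
      rw [hL, owl_lang, List.prod_append, List.prod_append, List.prod_singleton,
        List.prod_singleton]
      constructor
      · intro e
        exact ⟨a, b, b, ⟨a, ⟨rfl, rfl⟩, e⟩, rfl, rfl⟩
      · rintro ⟨_, _, _, ⟨_, ⟨_, rfl⟩, e⟩, rfl, _⟩
        exact e
    ext a b
    have h' : wbeh D u = wbeh D v := h
    show u.prod.r a b ↔ v.prod.r a b
    rw [key, key, mem_lang_iff', mem_lang_iff', wbeh_append, wbeh_append, wbeh_append,
      wbeh_append, h']
  surj s := ⟨wbeh D [s], [s], by simp⟩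

theorem owl_lower (k : ℕ) [Fintype Q] (D : TwoNFA (Rl (Fin (2066 * k + 2))) Q)
    (hD : D.Deterministic) (hL : D.lang = (owl (Fin (2066 * k + 2))).lang) :
    2 ^ k ≤ 2 * (Fintype.card Q + 1) := by
  obtain ⟨x, hx⟩ := (autCover D hD hL).surj (star {0} 1)
  have h1 := pb_pow k _ (autCover D hD hL) (by simp; omega) 0 1 (by simp) x hx
  refine h1.trans ((Set.ncard_le_card _).trans (le_of_eq ?_))
  show Nat.card (Option Q × Bool) = _
  simp [mul_comm]

end Vale.Agent.P343
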