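import Mathlib

/-! Two averaging lemmas over a finite group. -/

namespace Vale.Agent.P343

open Finset

theorem avg_dense {G P : Type} [Group G] [Fintype G] [Fintype P] [DecidableEq P]
    (a : G → P → P) (ha : ∀ g h p, a (g * h) p = a h (a g p))
    (hinj : ∀ g, Function.Injective (a g)) (A D : Finset P) (T : ℕ) :
    ∃ Cs : Finset P, (∀ g p, a g p ∈ Cs → p ∈ Cs) ∧ Cs.card ≤ T * A.card ∧
      T * ∑ g, ((D \ Cs).filter fun c => a g c ∈ A).card ≤ D.card * Fintype.card G := by
  classical
  let deg : P → ℕ := fun c => (univ.filter fun g : G => a g c ∈ A).card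
  have hdeg : ∀ h c, deg (a h c) = deg c := by
    intro h c
    refine card_bij (fun g _ => h * g) ?_ ?_ ?_
    · intro g hg
      simp only [mem_filter, mem_univ, true_and] at hg ⊢
      rwa [ha]
    · intro g _ g' _ e
      exact mul_left_cancel e
    · intro g hg
      simp only [mem_filter, mem_univ, true_and] at hg ⊢
      refine ⟨h⁻¹ * g, ?_, by simp⟩
      rw [← ha]
      simpa using hg
  have hsum : ∀ E : Finset P, ∑ g, (E.filter fun c => a g c ∈ A).card = ∑ c ∈ E, deg c := by
    intro E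
    simp only [deg, card_filter]
    exact sum_comm
  refine ⟨univ.filter fun c => Fintype.card G ≤ T * deg c, ?_, ?_, ?_⟩
  · intro g p hp
    simp only [mem_filter, mem_univ, true_and] at hp ⊢
    rwa [hdeg] at hp
  · set Cs := univ.filter fun c => Fintype.card G ≤ T * deg c with hCs
    have h1 : Cs.card * Fintype.card G ≤ T * ∑ c ∈ Cs, deg c := by
      rw [mul_sum, ← smul_eq_mul]
      exact card_nsmul_le_sum _ _ _ fun c hc => (mem_filter.1 hc).2
    have h2 : ∑ c ∈ Cs, deg c ≤ Fintype.card G * A.card := by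
      rw [← hsum, ← smul_eq_mul, ← card_univ]
      refine sum_le_card_nsmul _ _ _ fun g _ => ?_
      exact card_le_card_of_injOn (a g) (fun c hc => (mem_filter.1 hc).2) (hinj g).injOn
    have h3 : Cs.card * Fintype.card G ≤ T * A.card * Fintype.card G := by
      calc _ ≤ _ := h1
        _ ≤ T * (Fintype.card G * A.card) := Nat.mul_le_mul_left _ h2
        _ = _ := by ring
    exact Nat.le_of_mul_le_mul_right h3 Fintype.card_pos
  · rw [hsum, mul_sum]
    refine le_trans (sum_le_card_nsmul _ _ (Fintype.card G) fun c hc => ?_) ?_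
    · have := (mem_sdiff.1 hc).2
      simp only [mem_filter, mem_univ, true_and, not_le] at this
      exact this.le
    · rw [smul_eq_mul]
      exact Nat.mul_le_mul_right _ (card_le_card sdiff_subset)

theorem avg_fibre {G X : Type} [Group G] [Fintype G] [DecidableEq X]
    (π : G →* Equiv.Perm X) (Y J : Finset X) (M : ℕ) (hM : 0 < M) (hY : Y.card = M)
    (hJ : J.card = M) (hYJ : Disjoint Y J) (i0 j0 : X) (hi : i0 ∈ Y ∪ J) (hj : j0 ∈ Y ∪ J)
    (hij : i0 ≠ j0) (hZ : ∀ g, ∀ c ∈ Y ∪ J, π g c ∈ Y ∪ J)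
    (h2 : ∀ c ∈ Y ∪ J, ∀ d ∈ Y ∪ J, c ≠ d → ∀ c' ∈ Y ∪ J, ∀ d' ∈ Y ∪ J, c' ≠ d' →
      ∃ k, π k c = c' ∧ π k d = d') (e : G → ℕ) :
    ∃ s : X → G, (∀ j ∈ J, π (s j) j0 = j ∧ π (s j) i0 ∈ Y) ∧
      Fintype.card G * ∑ j ∈ J, e (s j) ≤ 4 * M * ∑ g, e g := by
  classical
  let F : X → Finset G := fun j => univ.filter fun g => π g j0 = j ∧ π g i0 ∈ Y
  have hne : ∀ y ∈ Y, ∀ j ∈ J, y ≠ j := fun y hy j hj e =>
    disjoint_left.1 hYJ hy (e ▸ hj)
  have hF : ∀ j ∈ J, Fintype.card G ≤ 4 * M * (F j).card := by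
    intro j hjJ
    have h3 : ∀ y ∈ Y, Fintype.card G ≤
        ((F j).filter fun g => π g i0 = y).card * (4 * M * M) := by
      intro y hy
      have h4 : ((Y ∪ J) ×ˢ (Y ∪ J)).card = 4 * M * M := by
        rw [card_product, card_union_of_disjoint hYJ, hY, hJ]; ring
      rw [← h4, ← card_univ]
      refine card_le_mul_card_image_of_maps_to (f := fun g => (π g i0, π g j0))
        (fun g _ => mem_product.2 ⟨hZ g _ hi, hZ g _ hj⟩) _ ?_
      rintro ⟨c, d⟩ hcd
      obtain ⟨hc, hd⟩ := mem_product.1 hcd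
      by_cases hcd' : c = d
      · refine le_trans (le_of_eq (card_eq_zero.2 (filter_eq_empty_iff.2 fun g _ hg => ?_)))
          (Nat.zero_le _)
        obtain ⟨e1, e2⟩ := Prod.ext_iff.1 hg
        simp only at e1 e2
        exact hij ((π g).injective (by rw [e1, e2, hcd']))
      · obtain ⟨k, k1, k2⟩ := h2 c hc d hd hcd' y (mem_union_left _ hy) j (mem_union_right _ hjJ)
          (hne y hy j hjJ)
        refine card_le_card_of_injOn (fun g => k * g) (fun g hg => ?_)
          (fun g _ g' _ e => mul_left_cancel e)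
        obtain ⟨e1, e2⟩ := Prod.ext_iff.1 (mem_filter.1 hg).2
        simp only at e1 e2
        simp only [F, coe_filter, mem_filter, mem_univ, true_and, map_mul, Equiv.Perm.mul_apply,
          Set.mem_ofPred_eq, e1, e2, k1, k2, hy, and_self]
    have h5 : (F j).card = ∑ y ∈ Y, ((F j).filter fun g => π g i0 = y).card :=
      card_eq_sum_card_fiberwise fun g hg => (mem_filter.1 hg).2.2
    have h6 : M * Fintype.card G ≤ M * (4 * M * (F j).card) := by
      calc M * Fintype.card G = Y.card • Fintype.card G := by rw [hY, smul_eq_mul]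
        _ ≤ _ := card_nsmul_le_sum _ _ _ h3
        _ = _ := by rw [← sum_mul, ← h5]; ring
    exact Nat.le_of_mul_le_mul_left h6 hM
  have hmin : ∀ j, ∃ g, j ∈ J → g ∈ F j ∧ ∀ g' ∈ F j, e g ≤ e g' := by
    intro j
    by_cases hjJ : j ∈ J
    · have : (F j).Nonempty := by
        rw [← card_pos]
        have h1 := hF j hjJ
        have h0 : 0 < Fintype.card G := Fintype.card_pos
        by_contra h3
        have h4 : (F j).card = 0 := by omega
        rw [h4] at h1
        omega
      obtain ⟨g, hg⟩ := exists_min_image (F j) e this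
      exact ⟨g, fun _ => hg⟩
    · exact ⟨1, fun h => absurd h hjJ⟩
  choose s hs using hmin
  refine ⟨s, fun j hj => (mem_filter.1 (hs j hj).1).2, ?_⟩
  have h7 : ∑ j ∈ J, ∑ g ∈ F j, e g ≤ ∑ g, e g := by
    simp only [F, sum_filter]
    rw [sum_comm]
    refine sum_le_sum fun g _ => ?_
    refine le_trans (sum_le_sum (g := fun j => if π g j0 = j then e g else 0) fun j _ => ?_) ?_
    · split_ifs with a b
      · exact le_rfl
      · exact absurd a.1 b
      · exact Nat.zero_le _
      · exact le_rfl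
    · rw [sum_ite_eq]
      split_ifs
      · exact le_rfl
      · exact Nat.zero_le _
  refine le_trans ?_ (Nat.mul_le_mul_left _ h7)
  rw [mul_sum, mul_sum]
  refine sum_le_sum fun j hj => ?_
  have h8 : (F j).card * e (s j) ≤ ∑ g ∈ F j, e g := by
    rw [← smul_eq_mul]
    exact card_nsmul_le_sum _ _ _ (hs j hj).2
  calc Fintype.card G * e (s j) ≤ 4 * M * (F j).card * e (s j) :=
        Nat.mul_le_mul_right _ (hF j hj)
    _ = 4 * M * ((F j).card * e (s j)) := by ring
    _ ≤ _ := Nat.mul_le_mul_left _ h8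

theorem exists_perm_two {X : Type} [DecidableEq X] {a b c d : X} (hab : a ≠ b) (hcd : c ≠ d) :
    ∃ s : Equiv.Perm X, s a = c ∧ s b = d ∧
      ∀ z, z ≠ a → z ≠ b → z ≠ c → z ≠ d → s z = z := by
  refine ⟨Equiv.swap (Equiv.swap a c b) d * Equiv.swap a c, ?_, by simp, ?_⟩
  · rw [Equiv.Perm.mul_apply, Equiv.swap_apply_left]
    refine Equiv.swap_apply_of_ne_of_ne (fun e => hab ?_) hcd
    apply (Equiv.swap a c).injective
    rw [Equiv.swap_apply_left, ← e]
  · intro z h1 h2 h3 h4
    rw [Equiv.Perm.mul_apply, Equiv.swap_apply_of_ne_of_ne h1 h3]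
    refine Equiv.swap_apply_of_ne_of_ne (fun e => h2 ?_) h4
    apply (Equiv.swap a c).injective
    rw [Equiv.swap_apply_of_ne_of_ne h1 h3, ← e]

end Vale.Agent.P343
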