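import Mathlib

/-! Two-way behaviours: relations between directed ports, composed by zigzag paths. -/

namespace Vale.Agent.P343

open Relation

/-- A behaviour of a tape segment. A port with `dir = true` travels to the right. -/
@[ext] structure Beh (P : Type) (dir : P → Bool) where
  r : P → P → Prop

variable {P : Type} {dir : P → Bool}

/-- the block entered from the middle boundary -/
def blk (x y : Beh P dir) (q : P) : Beh P dir := if dir q then y else x

/-- the block entered from the outer boundary -/
def fst (x y : Beh P dir) (q : P) : Beh P dir := if dir q then x else y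

inductive Mid (x y : Beh P dir) : P → P → Prop
  | exit {q r : P} : (blk x y q).r q r → dir r = dir q → Mid x y q r
  | turn {q q' r : P} : (blk x y q).r q q' → dir q' ≠ dir q → Mid x y q' r → Mid x y q r

def Beh.comp (x y : Beh P dir) : Beh P dir :=
  ⟨fun p r => ((fst x y p).r p r ∧ dir r ≠ dir p) ∨
    ∃ q, (fst x y p).r p q ∧ dir q = dir p ∧ Mid x y q r⟩

/-- one step in a list of blocks -/
def Step (W : List (Beh P dir)) (c c' : ℕ × P) : Prop :=
  ∃ i x, W[i]? = some x ∧ x.r c.2 c'.2 ∧ c.1 = (if dir c.2 then i else i + 1) ∧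
    c'.1 = (if dir c'.2 then i + 1 else i)

def prodL (W : List (Beh P dir)) : Beh P dir :=
  ⟨fun p q => ReflTransGen (Step W) (if dir p then 0 else W.length, p)
    (if dir q then W.length else 0, q)⟩

theorem step_left {W1 W2 : List (Beh P dir)} {c c' : ℕ × P} (h : Step W1 c c') :
    Step (W1 ++ W2) c c' := by
  obtain ⟨i, x, h1, h2⟩ := h
  refine ⟨i, x, ?_, h2⟩
  rw [List.getElem?_append_left (List.getElem?_eq_some_iff.1 h1).1, h1]

theorem step_right {W1 W2 : List (Beh P dir)} {c c' : ℕ × P} (h : Step W2 c c') :
    Step (W1 ++ W2) (c.1 + W1.length, c.2) (c'.1 + W1.length, c'.2) := by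
  obtain ⟨i, x, h1, h2, h3, h4⟩ := h
  refine ⟨i + W1.length, x, ?_, h2, ?_, ?_⟩
  · rw [List.getElem?_append_right (by omega)]
    simpa using h1
  · simp only [h3]; split_ifs <;> omega
  · simp only [h4]; split_ifs <;> omega

theorem reach_left {W1 W2 : List (Beh P dir)} {c c' : ℕ × P} (h : ReflTransGen (Step W1) c c') :
    ReflTransGen (Step (W1 ++ W2)) c c' := by
  induction h with
  | refl => exact ReflTransGen.refl
  | tail _ h ih => exact ih.tail (step_left h)

theorem reach_right {W1 W2 : List (Beh P dir)} {c c' : ℕ × P} (h : ReflTransGen (Step W2) c c') :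
    ReflTransGen (Step (W1 ++ W2)) (c.1 + W1.length, c.2) (c'.1 + W1.length, c'.2) := by
  induction h with
  | refl => exact ReflTransGen.refl
  | tail _ h ih => exact ih.tail (step_right h)

theorem mid_reach {W1 W2 : List (Beh P dir)} {q r : P} (h : Mid (prodL W1) (prodL W2) q r) :
    ReflTransGen (Step (W1 ++ W2)) (W1.length, q)
      (if dir r then (W1 ++ W2).length else 0, r) := by
  induction h with
  | @exit q r h1 h2 =>
    cases hq : dir q
    · rw [hq] at h2
      simp only [blk, hq, prodL, h2, Bool.false_eq_true, if_false] at h1 ⊢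
      exact reach_left h1
    · rw [hq] at h2
      simp only [blk, hq, prodL, h2, if_true] at h1 ⊢
      have := reach_right (W1 := W1) h1
      simpa [add_comm] using this
  | @turn q q' r h1 h2 _ ih =>
    refine ReflTransGen.trans ?_ ih
    cases hq : dir q
    · have h3 : dir q' = true := by simpa [hq] using h2
      simp only [blk, hq, prodL, h3, Bool.false_eq_true, if_false, if_true] at h1 ⊢
      exact reach_left h1
    · have h3 : dir q' = false := by simpa [hq] using h2
      simp only [blk, hq, prodL, h3, Bool.false_eq_true, if_false, if_true] at h1 ⊢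
      have := reach_right (W1 := W1) h1
      simpa [add_comm] using this

theorem reach_split {W1 W2 : List (Beh P dir)} {r : P} {c : ℕ × P}
    (h : ReflTransGen (Step (W1 ++ W2)) c (if dir r then (W1 ++ W2).length else 0, r)) :
    ((c.1 < W1.length ∨ (c.1 = W1.length ∧ dir c.2 = false)) →
      ∃ q, ReflTransGen (Step W1) c (if dir q then W1.length else 0, q) ∧
        ((dir q = false ∧ q = r) ∨ (dir q = true ∧ Mid (prodL W1) (prodL W2) q r))) ∧
    ((W1.length < c.1 ∨ (c.1 = W1.length ∧ dir c.2 = true)) →
      ∃ q, ReflTransGen (Step W2) (c.1 - W1.length, c.2) (if dir q then W2.length else 0, q) ∧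
        ((dir q = true ∧ q = r) ∨ (dir q = false ∧ Mid (prodL W1) (prodL W2) q r))) := by
  induction h using ReflTransGen.head_induction_on with
  | refl =>
    cases hr : dir r
    · refine ⟨fun _ => ⟨r, by simp only [hr]; exact ReflTransGen.refl, Or.inl ⟨hr, rfl⟩⟩, ?_⟩
      simp [hr]
    · refine ⟨?_, fun _ => ⟨r, ?_, Or.inl ⟨hr, rfl⟩⟩⟩
      · simp [hr]
      · simp only [hr, if_true, List.length_append, Nat.add_sub_cancel_left]
        exact ReflTransGen.refl
  | @head c c' hs _ ih =>
    obtain ⟨k, p⟩ := c
    obtain ⟨k', p'⟩ := c'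
    obtain ⟨i, x, h1, h2, h3, h4⟩ := hs
    simp only at h2 h3 h4 ih ⊢
    by_cases hi : i < W1.length
    · have hs1 : Step W1 (k, p) (k', p') :=
        ⟨i, x, by rwa [List.getElem?_append_left hi] at h1, h2, h3, h4⟩
      refine ⟨fun _ => ?_, fun hc => ?_⟩
      · by_cases hc' : k' < W1.length ∨ (k' = W1.length ∧ dir p' = false)
        · obtain ⟨q, hq1, hq2⟩ := ih.1 hc'
          exact ⟨q, hq1.head hs1, hq2⟩
        · have hd : dir p' = true := by
            cases hp : dir p'
            · simp [hp] at h4 hc'; omega
            · rfl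
          have hk : k' = W1.length := by simp [hd] at h4 hc'; omega
          obtain ⟨q, hq1, hq2⟩ := ih.2 (Or.inr ⟨hk, hd⟩)
          refine ⟨p', ?_, Or.inr ⟨hd, ?_⟩⟩
          · simp only [hd, if_true, ← hk]
            exact ReflTransGen.single hs1
          · have hb : (blk (prodL W1) (prodL W2) p').r p' q := by
              simpa [blk, hd, prodL, hk] using hq1
            rcases hq2 with ⟨a, rfl⟩ | ⟨a, b⟩
            · exact Mid.exit hb (by rw [a, hd])
            · exact Mid.turn hb (by simp [a, hd]) b
      · exfalso
        cases hp : dir p <;> simp [hp] at h3 hc <;> omega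
    · have hs2 : Step W2 (k - W1.length, p) (k' - W1.length, p') := by
        refine ⟨i - W1.length, x, by rwa [List.getElem?_append_right (by omega)] at h1, h2, ?_, ?_⟩
        · simp only [h3]; split_ifs <;> omega
        · simp only [h4]; split_ifs <;> omega
      refine ⟨fun hc => ?_, fun _ => ?_⟩
      · exfalso
        cases hp : dir p <;> simp [hp] at h3 hc <;> omega
      · by_cases hc' : W1.length < k' ∨ (k' = W1.length ∧ dir p' = true)
        · obtain ⟨q, hq1, hq2⟩ := ih.2 hc'
          exact ⟨q, hq1.head hs2, hq2⟩
        · have hd : dir p' = false := by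
            cases hp : dir p'
            · rfl
            · simp [hp] at h4 hc'; omega
          have hk : k' = W1.length := by simp [hd] at h4 hc'; omega
          obtain ⟨q, hq1, hq2⟩ := ih.1 (Or.inr ⟨hk, hd⟩)
          refine ⟨p', ?_, Or.inr ⟨hd, ?_⟩⟩
          · have : k' - W1.length = 0 := by omega
            rw [this] at hs2
            simp only [hd]
            exact ReflTransGen.single hs2
          · have hb : (blk (prodL W1) (prodL W2) p').r p' q := by
              simpa [blk, hd, prodL, hk] using hq1
            rcases hq2 with ⟨a, rfl⟩ | ⟨a, b⟩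
            · exact Mid.exit hb (by rw [a, hd])
            · exact Mid.turn hb (by simp [a, hd]) b

theorem reach_nil {c c' : ℕ × P} (h : ReflTransGen (Step ([] : List (Beh P dir))) c c') :
    c = c' := by
  induction h with
  | refl => rfl
  | tail _ h _ => obtain ⟨i, x, h1, _⟩ := h; simp at h1

theorem prodL_append (W1 W2 : List (Beh P dir)) :
    prodL (W1 ++ W2) = (prodL W1).comp (prodL W2) := by
  ext p r
  constructor
  · intro h
    have hs := reach_split h
    cases hp : dir p
    · simp only [hp, List.length_append] at hs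
      rcases Nat.eq_zero_or_pos W2.length with h0 | h0
      · obtain rfl : W2 = [] := List.length_eq_zero_iff.1 h0
        obtain ⟨q, hq1, hq2⟩ := hs.1 (Or.inr ⟨by simp, trivial⟩)
        refine Or.inr ⟨p, by simp [fst, hp, prodL, ReflTransGen.refl], rfl, ?_⟩
        have hb : (blk (prodL W1) (prodL []) p).r p q := by
          simpa [blk, hp, prodL] using hq1
        rcases hq2 with ⟨a, rfl⟩ | ⟨a, b⟩
        · exact Mid.exit hb (by rw [a, hp])
        · exact Mid.turn hb (by simp [a, hp]) b
      · obtain ⟨q, hq1, hq2⟩ := hs.2 (Or.inl (by simp; omega))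
        have hb : (fst (prodL W1) (prodL W2) p).r p q := by
          simpa [fst, hp, prodL] using hq1
        rcases hq2 with ⟨a, rfl⟩ | ⟨a, b⟩
        · exact Or.inl ⟨hb, by simp [a, hp]⟩
        · exact Or.inr ⟨q, hb, by rw [a, hp], b⟩
    · simp only [hp, if_true] at hs
      rcases Nat.eq_zero_or_pos W1.length with h0 | h0
      · obtain rfl : W1 = [] := List.length_eq_zero_iff.1 h0
        obtain ⟨q, hq1, hq2⟩ := hs.2 (Or.inr ⟨by simp, trivial⟩)
        refine Or.inr ⟨p, by simp [fst, hp, prodL, ReflTransGen.refl], rfl, ?_⟩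
        have hb : (blk (prodL []) (prodL W2) p).r p q := by
          simpa [blk, hp, prodL] using hq1
        rcases hq2 with ⟨a, rfl⟩ | ⟨a, b⟩
        · exact Mid.exit hb (by rw [a, hp])
        · exact Mid.turn hb (by simp [a, hp]) b
      · obtain ⟨q, hq1, hq2⟩ := hs.1 (Or.inl h0)
        have hb : (fst (prodL W1) (prodL W2) p).r p q := by
          simpa [fst, hp, prodL] using hq1
        rcases hq2 with ⟨a, rfl⟩ | ⟨a, b⟩
        · exact Or.inl ⟨hb, by simp [a, hp]⟩
        · exact Or.inr ⟨q, hb, by rw [a, hp], b⟩
  · rintro (⟨h1, h2⟩ | ⟨q, h1, h2, h3⟩)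
    · cases hp : dir p
      · have h3 : dir r = true := by simpa [hp] using h2
        simp only [fst, hp, prodL, h3, Bool.false_eq_true, if_false, if_true] at h1 ⊢
        have := reach_right (W1 := W1) h1
        simpa [add_comm] using this
      · have h3 : dir r = false := by simpa [hp] using h2
        simp only [fst, hp, prodL, h3, Bool.false_eq_true, if_false, if_true] at h1 ⊢
        exact reach_left h1
    · refine ReflTransGen.trans ?_ (mid_reach h3)
      cases hp : dir p
      · rw [hp] at h2
        simp only [fst, hp, prodL, h2, Bool.false_eq_true, if_false] at h1 ⊢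
        have := reach_right (W1 := W1) h1
        simpa [add_comm] using this
      · rw [hp] at h2
        simp only [fst, hp, prodL, h2, if_true] at h1 ⊢
        exact reach_left h1

theorem prodL_single (x : Beh P dir) : prodL [x] = x := by
  ext p q
  constructor
  · intro h
    simp only [prodL, List.length_singleton] at h
    rcases h.cases_head with h0 | ⟨c, h1, h2⟩
    · have h3 := (Prod.ext_iff.1 h0).2
      have h4 := (Prod.ext_iff.1 h0).1
      simp only at h3 h4
      subst h3
      split_ifs at h4
    · obtain ⟨i, y, a1, a2, a3, a4⟩ := h1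
      obtain rfl : i = 0 := by
        have := (List.getElem?_eq_some_iff.1 a1).1
        simpa using this
      obtain rfl : x = y := by simpa using a1
      rcases h2.cases_head with h0 | ⟨c', h3, _⟩
      · rw [h0] at a2; exact a2
      · obtain ⟨j, z, b1, _, b3, _⟩ := h3
        obtain rfl : j = 0 := by
          have := (List.getElem?_eq_some_iff.1 b1).1
          simpa using this
        rw [a4] at b3
        split_ifs at b3
  · intro h
    exact ReflTransGen.single ⟨0, x, rfl, h, by simp, by simp⟩

theorem prodL_nil_r (p q : P) : (prodL ([] : List (Beh P dir))).r p q ↔ q = p := by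
  constructor
  · intro h
    exact (Prod.ext_iff.1 (reach_nil h)).2.symm
  · rintro rfl
    simp only [prodL, List.length_nil, ite_self]
    exact ReflTransGen.refl

instance : Monoid (Beh P dir) where
  mul := Beh.comp
  one := prodL []
  mul_assoc x y z := by
    show (x.comp y).comp z = x.comp (y.comp z)
    conv_lhs => rw [← prodL_single x, ← prodL_single y, ← prodL_single z, ← prodL_append,
      ← prodL_append]
    conv_rhs => rw [← prodL_single x, ← prodL_single y, ← prodL_single z, ← prodL_append,
      ← prodL_append]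
    rfl
  one_mul x := by
    show (prodL []).comp x = x
    conv_lhs => rw [← prodL_single x, ← prodL_append]
    exact prodL_single x
  mul_one x := by
    show x.comp (prodL []) = x
    conv_lhs => rw [← prodL_single x, ← prodL_append]
    exact prodL_single x

theorem one_r (p q : P) : (1 : Beh P dir).r p q ↔ q = p := prodL_nil_r p q

theorem mul_r (x y : Beh P dir) (p r : P) : (x * y).r p r ↔
    ((fst x y p).r p r ∧ dir r ≠ dir p) ∨
      ∃ q, (fst x y p).r p q ∧ dir q = dir p ∧ Mid x y q r := Iff.rfl

theorem prodL_eq_prod (W : List (Beh P dir)) : prodL W = W.prod := by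
  induction W with
  | nil => rfl
  | cons x W ih =>
    rw [List.prod_cons, ← ih, ← List.singleton_append, prodL_append, prodL_single]
    rfl

instance [Finite P] : Finite (Beh P dir) :=
  Finite.of_injective (fun x : Beh P dir => x.r) (fun _ _ h => Beh.ext h)

/-- deterministic behaviours -/
def Det (x : Beh P dir) : Prop := ∀ p q q', x.r p q → x.r p q' → q = q'

theorem det_one : Det (1 : Beh P dir) := by
  intro p q q' h h'
  rw [one_r] at h h'
  rw [h, h']

theorem Det.blk {x y : Beh P dir} (hx : Det x) (hy : Det y) (q : P) : Det (blk x y q) := by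
  unfold Vale.Agent.P343.blk; split_ifs <;> assumption

theorem Det.fst {x y : Beh P dir} (hx : Det x) (hy : Det y) (q : P) : Det (fst x y q) := by
  unfold Vale.Agent.P343.fst; split_ifs <;> assumption

theorem Mid.det {x y : Beh P dir} (hx : Det x) (hy : Det y) {q r r' : P} (h : Mid x y q r)
    (h' : Mid x y q r') : r = r' := by
  induction h with
  | exit h1 h2 =>
    cases h' with
    | exit h3 _ => exact hx.blk hy _ _ _ _ h1 h3
    | turn h3 h4 _ => rw [← hx.blk hy _ _ _ _ h1 h3] at h4; exact absurd h2 h4
  | turn h1 h2 _ ih =>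
    cases h' with
    | exit h3 h4 => rw [← hx.blk hy _ _ _ _ h1 h3] at h4; exact absurd h4 h2
    | turn h3 _ h5 => rw [← hx.blk hy _ _ _ _ h1 h3] at h5; exact ih h5

theorem Det.mul {x y : Beh P dir} (hx : Det x) (hy : Det y) : Det (x * y) := by
  rintro p r r' (⟨h1, h2⟩ | ⟨q, h1, h2, h3⟩) (⟨h1', h2'⟩ | ⟨q', h1', h2', h3'⟩)
  · exact hx.fst hy _ _ _ _ h1 h1'
  · rw [hx.fst hy _ _ _ _ h1 h1'] at h2; exact absurd h2' h2
  · rw [← hx.fst hy _ _ _ _ h1 h1'] at h2'; exact absurd h2 h2'
  · rw [← hx.fst hy _ _ _ _ h1 h1'] at h3'; exact h3.det hx hy h3'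

theorem mul_through {x y : Beh P dir} {p q r : P} (h1 : (fst x y p).r p q) (d1 : dir q = dir p)
    (h2 : (blk x y q).r q r) (d2 : dir r = dir q) : (x * y).r p r :=
  Or.inr ⟨q, h1, d1, Mid.exit h2 d2⟩

theorem mul_fix {x y : Beh P dir} {p : P} (hx : x.r p p) (hy : y.r p p) : (x * y).r p p := by
  apply mul_through (q := p) _ rfl _ rfl
  · unfold fst; split_ifs <;> assumption
  · unfold blk; split_ifs <;> assumption

theorem pow_fix {x : Beh P dir} {p : P} (hx : x.r p p) (n : ℕ) : (x ^ n).r p p := by
  induction n with
  | zero => rw [pow_zero, one_r]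
  | succ n ih => rw [pow_succ]; exact mul_fix ih hx

/-- units have no turns -/
theorem unit_dir {a b : Beh P dir} (h1 : a * b = 1) (h2 : b * a = 1) {p q : P} (h : a.r p q) :
    dir q = dir p := by
  by_contra hne
  cases hp : dir p
  · have : (b * a).r p q := Or.inl ⟨by simpa [fst, hp] using h, hne⟩
    rw [h2, one_r] at this
    exact hne (by rw [this])
  · have : (a * b).r p q := Or.inl ⟨by simpa [fst, hp] using h, hne⟩
    rw [h1, one_r] at this
    exact hne (by rw [this])

theorem unit_total {a b : Beh P dir} (h1 : a * b = 1) (h2 : b * a = 1) (p : P) :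
    ∃ q, a.r p q ∧ b.r q p := by
  cases hp : dir p
  · have : (b * a).r p p := by rw [h2, one_r]
    rcases this with ⟨_, h⟩ | ⟨q, h3, h4, h5⟩
    · exact absurd rfl h
    · have hq : dir q = false := by rw [h4, hp]
      refine ⟨q, by simpa [fst, hp] using h3, ?_⟩
      cases h5 with
      | exit h6 _ => simpa [blk, hq] using h6
      | turn h6 h7 _ => exact absurd (unit_dir h2 h1 (by simpa [blk, hq] using h6)) h7
  · have : (a * b).r p p := by rw [h1, one_r]
    rcases this with ⟨_, h⟩ | ⟨q, h3, h4, h5⟩
    · exact absurd rfl h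
    · have hq : dir q = true := by rw [h4, hp]
      refine ⟨q, by simpa [fst, hp] using h3, ?_⟩
      cases h5 with
      | exit h6 _ => simpa [blk, hq] using h6
      | turn h6 h7 _ => exact absurd (unit_dir h2 h1 (by simpa [blk, hq] using h6)) h7

theorem unit_cancel {a b : Beh P dir} (h1 : a * b = 1) (h2 : b * a = 1) {p q r : P}
    (ha : a.r p q) (hb : b.r q r) : r = p := by
  have d1 := unit_dir h1 h2 ha
  have d2 := unit_dir h2 h1 hb
  cases hp : dir p
  · have : (b * a).r p r :=
      mul_through (by simpa [fst, hp] using ha) d1 (by simpa [blk, d1, hp] using hb) d2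
    rwa [h2, one_r] at this
  · have : (a * b).r p r :=
      mul_through (by simpa [fst, hp] using ha) d1 (by simpa [blk, d1, hp] using hb) d2
    rwa [h1, one_r] at this

theorem unit_inv {a b : Beh P dir} (h1 : a * b = 1) (h2 : b * a = 1) {p q : P}
    (ha : a.r p q) : b.r q p := by
  obtain ⟨p', h3, _⟩ := unit_total h2 h1 q
  rw [← unit_cancel h1 h2 ha h3]
  exact h3

theorem unit_det {a b : Beh P dir} (h1 : a * b = 1) (h2 : b * a = 1) : Det a :=
  fun _ _ _ h h' => (unit_cancel h2 h1 (unit_inv h1 h2 h) h').symm

/-- the permutation of ports induced by a unit -/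
noncomputable def act (g : (Beh P dir)ˣ) (p : P) : P :=
  Classical.choose (unit_total (a := fst g.val g.inv p) (b := fst g.inv g.val p)
    (by unfold fst; split_ifs; exacts [g.val_inv, g.inv_val])
    (by unfold fst; split_ifs; exacts [g.inv_val, g.val_inv]) p)

theorem act_iff (g : (Beh P dir)ˣ) (p q : P) : act g p = q ↔ (fst g.val g.inv p).r p q := by
  have h := (Classical.choose_spec (unit_total (a := fst g.val g.inv p) (b := fst g.inv g.val p)
    (by unfold fst; split_ifs; exacts [g.val_inv, g.inv_val])
    (by unfold fst; split_ifs; exacts [g.inv_val, g.val_inv]) p)).1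
  constructor
  · rintro rfl; exact h
  · intro h'
    exact (unit_det g.val_inv g.inv_val).fst (unit_det g.inv_val g.val_inv) _ _ _ _ h h'

theorem act_dir (g : (Beh P dir)ˣ) (p : P) : dir (act g p) = dir p := by
  have := (act_iff g p _).1 rfl
  unfold fst at this
  split_ifs at this
  · exact unit_dir g.val_inv g.inv_val this
  · exact unit_dir g.inv_val g.val_inv this

theorem act_one (p : P) : act (1 : (Beh P dir)ˣ) p = p := by
  rw [act_iff]
  unfold fst
  split_ifs <;> exact (one_r _ _).2 rfl

theorem act_mul (g h : (Beh P dir)ˣ) (p : P) : act (g * h) p = act h (act g p) := by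
  rw [act_iff]
  have h1 := (act_iff g p _).1 rfl
  have h2 := (act_iff h (act g p) _).1 rfl
  have d1 := act_dir g p
  have d2 := act_dir h (act g p)
  cases hp : dir p
  · simp only [fst, hp, d1] at h1 h2 ⊢
    exact mul_through (x := h.inv) (y := g.inv) (by simpa [fst, hp] using h1) d1
      (by simpa [blk, d1, hp] using h2) d2
  · simp only [fst, hp, d1, if_true] at h1 h2 ⊢
    exact mul_through (x := g.val) (y := h.val) (by simpa [fst, hp] using h1) d1
      (by simpa [blk, d1, hp] using h2) d2

theorem act_inv_act (g : (Beh P dir)ˣ) (p : P) : act g⁻¹ (act g p) = p := by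
  rw [← act_mul, mul_inv_cancel, act_one]

theorem act_act_inv (g : (Beh P dir)ˣ) (p : P) : act g (act g⁻¹ p) = p := by
  rw [← act_mul, inv_mul_cancel, act_one]

theorem act_inj (g : (Beh P dir)ˣ) : Function.Injective (act g) :=
  fun p q h => by rw [← act_inv_act g p, h, act_inv_act]

theorem act_eq_self (g : (Beh P dir)ˣ) (p : P) : act g p = p ↔ g.val.r p p := by
  rw [act_iff]
  unfold fst
  split_ifs
  · rfl
  · exact ⟨unit_inv g.inv_val g.val_inv, unit_inv g.val_inv g.inv_val⟩

theorem conj_fix (g : (Beh P dir)ˣ) (x : Beh P dir) (p : P) (h : x.r (act g p) (act g p)) :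
    (g.val * x * g.inv).r p p := by
  have h1 := (act_iff g p _).1 rfl
  have d1 := act_dir g p
  cases hp : dir p
  · simp only [fst, hp] at h1
    refine mul_through (q := act g p) (by simpa [fst, hp] using h1) d1 ?_ d1.symm
    simp only [blk, d1, hp]
    exact mul_through (q := act g p) (by simpa [fst, d1, hp] using h) rfl
      (by simpa [blk, d1, hp] using unit_inv g.inv_val g.val_inv h1) d1.symm
  · simp only [fst, hp, if_true] at h1
    refine mul_through (q := act g p) ?_ d1
      (by simpa [blk, d1, hp] using unit_inv g.val_inv g.inv_val h1) d1.symm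
    simp only [fst, hp, if_true]
    exact mul_through (q := act g p) (by simpa [fst, hp] using h1) d1
      (by simpa [blk, d1, hp] using h) rfl

end Vale.Agent.P343
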