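import Vale.Agent.P343.Cover

/-! The support bound for lifts of single edges, and the chain lemma. -/

namespace Vale.Agent.P343

variable {X : Type}

/-- the identity together with all edges from `A` to `b` -/
def star (A : Set X) (b : X) : Rl X := ⟨fun c d => c = d ∨ (c ∈ A ∧ d = b)⟩

theorem star_idem {A : Set X} {b : X} (h : b ∉ A) : star A b * star A b = star A b := by
  ext c d
  constructor
  · rintro ⟨e, (rfl | ⟨h1, rfl⟩), h2⟩
    · exact h2
    · rcases h2 with rfl | ⟨h3, _⟩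
      · exact Or.inr ⟨h1, rfl⟩
      · exact absurd h3 h
  · intro h1
    exact ⟨c, Or.inl rfl, h1⟩

def Pb (h b0 : ℕ) : Prop :=
  ∀ (X : Type) [Finite X] (C : Cover X), h ≤ Nat.card X → ∀ a b : X, a ≠ b →
    ∀ x, (x, star {a} b) ∈ C.S → b0 ≤ (supp x).ncard

theorem pb_base (h : ℕ) : Pb h 1 := by
  intro X _ C _ a b hab x hx
  by_contra hlt
  have h0 : supp x = ∅ := (Set.ncard_eq_zero (Set.toFinite _)).1 (by omega)
  have h1 : ∀ p, x.r p p := fun p => by
    by_contra hp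
    have : p ∈ supp x := hp
    simp [h0] at this
  have h2 : x = 1 := by
    ext p q
    rw [one_r]
    exact ⟨fun h => C.det _ hx _ _ _ h (h1 p), fun h => h ▸ h1 q⟩
  have h3 : star {a} b = 1 := C.fn _ hx _ C.S.one_mem h2
  have h4 : (star {a} b).r a b := Or.inr ⟨rfl, rfl⟩
  rw [h3] at h4
  exact hab h4

theorem card_compl [Finite X] (A : Set X) : Nat.card (Aᶜ : Set X) + A.ncard = Nat.card X := by
  rw [Nat.card_coe_set_eq, add_comm, Set.ncard_add_ncard_compl]

theorem ncard_preimage_val (A J : Set X) :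
    (Subtype.val ⁻¹' J : Set (Aᶜ : Set X)).ncard = (J \ A).ncard := by
  rw [← Set.ncard_image_of_injective _ Subtype.val_injective, Subtype.image_preimage_coe]
  congr 1
  ext c
  simp [and_comm]

theorem loc_star (C : Cover X) {A : Set X} {b : X} (hb : b ∉ A) {x : Beh C.P C.dir}
    (hx : (x, star A b) ∈ C.S) {U : Set C.P} (hU : supp x ⊆ U) :
    ∃ (C' : Cover (Aᶜ : Set X)) (U' : Set C'.P) (f : Beh C.P C.dir), (f, star A b) ∈ C.S ∧
      2 * U'.ncard + (supp f).ncard ≤ 2 * U.ncard ∧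
      ∀ y B, (y, star B b) ∈ C.S → supp y ⊆ U →
        ∃ y', (y', star (Subtype.val ⁻¹' B) ⟨b, hb⟩) ∈ C'.S ∧ supp y' ⊆ U' := by
  obtain ⟨n, hn, hidem⟩ := exists_idem_pow x
  have hf : (x ^ n, star A b) ∈ C.S := by
    have := C.pow_mem hx n
    rwa [pow_idem (star_idem hb) hn] at this
  let L : LocData C (Subtype.val : (Aᶜ : Set X) → X) :=
    { f := x ^ n, s := star A b, mem := hf, idem := hidem, inj := Subtype.val_injective
      row := fun a c => ⟨fun h => h.elim Eq.symm fun h => absurd h.1 a.2,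
        fun h => Or.inl h.symm⟩ }
  obtain ⟨C', U', h1, h2⟩ := loc_count C L ((supp_pow x n).trans hU)
  refine ⟨C', U', x ^ n, hf, h1, fun y B hy hyU => ?_⟩
  have hc : Closed (Subtype.val : (Aᶜ : Set X) → X) (star B b) := by
    rintro a c (rfl | ⟨_, rfl⟩)
    · exact ⟨a, rfl⟩
    · exact ⟨⟨c, hb⟩, rfl⟩
  obtain ⟨y', h3, h4⟩ := h2 y _ hy hc hyU
  refine ⟨y', ?_, h4⟩
  have : res (Subtype.val : (Aᶜ : Set X) → X) (star B b) =
      star (Subtype.val ⁻¹' B) ⟨b, hb⟩ := by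
    ext c d
    simp only [res, star, Set.mem_preimage, Subtype.ext_iff]
  exact this ▸ h3

theorem chain {h b0 : ℕ} (hP : Pb h b0) (K : ℕ) :
    ∀ (X : Type) [Finite X] (C : Cover X) (J : Set X) (b : X) (U : Set C.P),
      h + K ≤ Nat.card X → K ≤ J.ncard → b ∉ J →
      (∀ j ∈ J, ∃ x, (x, star {j} b) ∈ C.S ∧ supp x ⊆ U) → K * b0 ≤ 2 * U.ncard := by
  induction K with
  | zero => intros; simp
  | succ K ih =>
    intro X _ C J b U hX hJ hb hx
    obtain ⟨j, hj⟩ : J.Nonempty := Set.nonempty_of_ncard_ne_zero (by omega)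
    obtain ⟨x, hx1, hx2⟩ := hx j hj
    have hbj : b ∉ ({j} : Set X) := by
      rintro rfl
      exact hb hj
    obtain ⟨C', U', f, h1, h2, h3⟩ := loc_star C hbj hx1 hx2
    have h4 := hP X C (by omega) j b (fun e => hbj e.symm) f h1
    have h5 := card_compl ({j} : Set X)
    rw [Set.ncard_singleton] at h5
    have h6 := ih _ C' (Subtype.val ⁻¹' J) ⟨b, hbj⟩ U' (by omega) (by
      rw [ncard_preimage_val, Set.ncard_sdiff_singleton_of_mem hj]; omega) hb (by
      intro j' hj'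
      obtain ⟨y, hy1, hy2⟩ := hx j'.1 hj'
      obtain ⟨y', h7, h8⟩ := h3 y _ hy1 hy2
      refine ⟨y', ?_, h8⟩
      have : (Subtype.val ⁻¹' {j'.1} : Set (({j} : Set X)ᶜ : Set X)) = {j'} := by
        ext c
        simp [Subtype.ext_iff]
      exact this ▸ h7)
    rw [add_mul]
    omega

/-- the chain lemma after killing a set `Y` -/
theorem chain_star {h b0 : ℕ} (hP : Pb h b0) (M : ℕ) [Finite X] (C : Cover X) (Y J : Set X)
    (b : X) (U : Set C.P) (hX : h + M + Y.ncard ≤ Nat.card X) (hJ : M ≤ J.ncard)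
    (hYJ : Disjoint J Y) (hbY : b ∉ Y) (hbJ : b ∉ J) {x : Beh C.P C.dir}
    (hx : (x, star Y b) ∈ C.S) (hU : supp x ⊆ U)
    (hall : ∀ j ∈ J, ∃ y B, B \ Y = {j} ∧ (y, star B b) ∈ C.S ∧ supp y ⊆ U) :
    M * b0 ≤ 2 * U.ncard := by
  obtain ⟨C', U', f, _, h2, h3⟩ := loc_star C hbY hx hU
  have h5 := card_compl Y
  have h6 := chain hP M _ C' (Subtype.val ⁻¹' J) ⟨b, hbY⟩ U' (by omega) (by
    rw [ncard_preimage_val, hYJ.sdiff_eq_left]; exact hJ) hbJ (by
    intro j hj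
    obtain ⟨y, B, hB, hy1, hy2⟩ := hall j.1 hj
    obtain ⟨y', h7, h8⟩ := h3 y _ hy1 hy2
    refine ⟨y', ?_, h8⟩
    have : (Subtype.val ⁻¹' B : Set (Yᶜ : Set X)) = {j} := by
      ext c
      have h9 : c.1 ∈ B \ Y ↔ c.1 = j.1 := by rw [hB]; rfl
      simp only [Set.mem_preimage, Set.mem_singleton_iff, Subtype.ext_iff, ← h9]
      exact ⟨fun h => ⟨h, c.2⟩, fun h => h.1⟩
    exact this ▸ h7)
  omega

end Vale.Agent.P343
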