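import Vale.Agent.P343.Loc

/-! Covers of the monoid of binary relations by deterministic two-way behaviours. -/

namespace Vale.Agent.P343

open Relation

/-- binary relations under composition -/
@[ext] structure Rl (X : Type) where
  r : X → X → Prop

instance (X : Type) : Monoid (Rl X) where
  mul a b := ⟨fun x z => ∃ y, a.r x y ∧ b.r y z⟩
  one := ⟨fun x y => x = y⟩
  mul_assoc a b c := by
    ext x w
    constructor
    · rintro ⟨z, ⟨y, h1, h2⟩, h3⟩
      exact ⟨y, h1, z, h2, h3⟩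
    · rintro ⟨y, h1, z, h2, h3⟩
      exact ⟨z, ⟨y, h1, h2⟩, h3⟩
  one_mul a := by
    ext x z
    constructor
    · rintro ⟨y, rfl, h⟩
      exact h
    · intro h
      exact ⟨x, rfl, h⟩
  mul_one a := by
    ext x z
    constructor
    · rintro ⟨y, h, rfl⟩
      exact h
    · intro h
      exact ⟨z, h, rfl⟩

variable {X X' : Type}

theorem Rl.mul_r (a b : Rl X) (x z : X) : (a * b).r x z ↔ ∃ y, a.r x y ∧ b.r y z := Iff.rfl

theorem Rl.one_r (x y : X) : (1 : Rl X).r x y ↔ x = y := Iff.rfl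

instance [Finite X] : Finite (Rl X) :=
  Finite.of_injective (fun x : Rl X => x.r) (fun _ _ h => Rl.ext h)

theorem exists_idem_pow {M : Type} [Monoid M] [Finite M] (x : M) :
    ∃ n, 0 < n ∧ x ^ n * x ^ n = x ^ n := by
  obtain ⟨i, j, hne, h⟩ := Finite.exists_ne_map_eq_of_infinite (fun n : ℕ => x ^ n)
  wlog hij : i < j generalizing i j
  · exact this j i hne.symm h.symm (by omega)
  obtain ⟨d, rfl⟩ := Nat.exists_eq_add_of_lt hij
  have h1 : ∀ k m, x ^ (i + m + k * (d + 1)) = x ^ (i + m) := by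
    intro k
    induction k with
    | zero => simp
    | succ k ih =>
      intro m
      have : i + m + (k + 1) * (d + 1) = (i + d + 1) + (m + k * (d + 1)) := by ring
      rw [this, pow_add, ← h, ← pow_add, ← add_assoc, ih]
  refine ⟨(i + 1) * (d + 1), by positivity, ?_⟩
  have h2 : (i + 1) * (d + 1) = i + (i * d + d + 1) := by ring
  rw [← pow_add]
  conv_lhs => rw [h2]
  conv_rhs => rw [h2]
  rw [← h1 (i + 1) (i * d + d + 1), h2]

structure Cover (X : Type) : Type 1 where
  P : Type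
  fin : Finite P
  dir : P → Bool
  S : Submonoid (Beh P dir × Rl X)
  det : ∀ x ∈ S, Det x.1
  fn : ∀ x ∈ S, ∀ y ∈ S, x.1 = y.1 → x.2 = y.2
  surj : ∀ s, ∃ x, (x, s) ∈ S

instance (C : Cover X) : Finite C.P := C.fin

def res (i : X' → X) (s : Rl X) : Rl X' := ⟨fun a b => s.r (i a) (i b)⟩

def Closed (i : X' → X) (s : Rl X) : Prop := ∀ a c, s.r (i a) c → ∃ b, c = i b

theorem res_mul {i : X' → X} {s : Rl X} (h : Closed i s) (t : Rl X) :
    res i (s * t) = res i s * res i t := by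
  ext a b
  constructor
  · rintro ⟨c, h1, h2⟩
    obtain ⟨d, rfl⟩ := h _ _ h1
    exact ⟨d, h1, h2⟩
  · rintro ⟨d, h1, h2⟩
    exact ⟨i d, h1, h2⟩

theorem Closed.mul {i : X' → X} {s t : Rl X} (h : Closed i s) (h' : Closed i t) :
    Closed i (s * t) := by
  rintro a c ⟨d, h1, h2⟩
  obtain ⟨e, rfl⟩ := h _ _ h1
  exact h' _ _ h2

/-- the data of an idempotent acting as the identity on the image of `i` -/
structure LocData (C : Cover X) (i : X' → X) where
  f : Beh C.P C.dir
  s : Rl X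
  mem : (f, s) ∈ C.S
  idem : f * f = f
  inj : Function.Injective i
  row : ∀ a c, s.r (i a) c ↔ c = i a

namespace LocData

variable {C : Cover X} {i : X' → X} (L : LocData C i)

theorem closed : Closed i L.s := fun a _ h => ⟨a, (L.row _ _).1 h⟩

theorem res_s : res i L.s = 1 := by
  ext a b
  simp only [res, L.row, Rl.one_r]
  exact ⟨fun h => (L.inj h).symm, fun h => by rw [h]⟩

theorem det : Det L.f := C.det _ L.mem

theorem sandwich_left (x : Beh C.P C.dir) : L.f * (L.f * x * L.f) = L.f * x * L.f := by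
  rw [← mul_assoc, ← mul_assoc, L.idem]

theorem sandwich_right (x : Beh C.P C.dir) : L.f * x * L.f * L.f = L.f * x * L.f := by
  rw [mul_assoc, L.idem]

def cover : Cover X' where
  P := {p // Rec L.f p}
  fin := inferInstance
  dir := fun p => C.dir p.1
  S :=
    { carrier := {z | ∃ x s, (x, s) ∈ C.S ∧ L.f * x = x ∧ x * L.f = x ∧ Closed i s ∧
        z = (rho L.f x, res i s)}
      one_mem' := ⟨L.f, L.s, L.mem, L.idem, L.idem, L.closed, by
        rw [rho_self L.det, L.res_s]; rfl⟩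
      mul_mem' := by
        rintro _ _ ⟨x, s, a1, a2, a3, a4, rfl⟩ ⟨y, t, b1, b2, b3, b4, rfl⟩
        refine ⟨x * y, s * t, C.S.mul_mem a1 b1, by rw [← mul_assoc, a2],
          by rw [mul_assoc, b3], a4.mul b4, ?_⟩
        rw [rho_mul L.idem L.det a2 a3 b2 b3 (C.det _ a1) (C.det _ b1), res_mul a4]
        rfl }
  det := by
    rintro _ ⟨x, s, a1, _, _, _, rfl⟩
    exact rho_det L.det (C.det _ a1)
  fn := by
    rintro _ ⟨x, s, a1, a2, a3, _, rfl⟩ _ ⟨y, t, b1, b2, b3, _, rfl⟩ h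
    have h1 := rho_inj L.idem L.det a2 a3 b2 b3 h
    have h2 : s = t := C.fn _ a1 _ b1 h1
    rw [h2]
  surj := by
    intro t
    let t' : Rl X := ⟨fun c d => ∃ a b, c = i a ∧ d = i b ∧ t.r a b⟩
    obtain ⟨x, hx⟩ := C.surj t'
    have hc : Closed i t' := by
      rintro a c ⟨_, b, _, h, _⟩
      exact ⟨b, h⟩
    refine ⟨rho L.f (L.f * x * L.f), L.f * x * L.f, L.s * t' * L.s,
      C.S.mul_mem (C.S.mul_mem L.mem hx) L.mem, L.sandwich_left x, L.sandwich_right x,
      (L.closed.mul hc).mul L.closed, ?_⟩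
    rw [res_mul (L.closed.mul hc), res_mul L.closed, L.res_s, one_mul, mul_one]
    have : res i t' = t := by
      ext a b
      constructor
      · rintro ⟨a', b', h1, h2, h3⟩
        rw [L.inj h1, L.inj h2]
        exact h3
      · intro h
        exact ⟨a, b, rfl, rfl, h⟩
    rw [this]

/-- the localised element -/
def loc (x : Beh C.P C.dir) : Beh L.cover.P L.cover.dir := rho L.f (L.f * x * L.f)

theorem loc_mem {x : Beh C.P C.dir} {s : Rl X} (h : (x, s) ∈ C.S)
    (hc : Closed i (s * L.s)) : (L.loc x, res i (s * L.s)) ∈ L.cover.S := by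
  refine ⟨L.f * x * L.f, L.s * s * L.s, C.S.mul_mem (C.S.mul_mem L.mem h) L.mem,
    L.sandwich_left x, L.sandwich_right x, by rw [mul_assoc]; exact L.closed.mul hc, ?_⟩
  rw [mul_assoc L.s, res_mul L.closed, L.res_s, one_mul]
  rfl

theorem loc_one : L.loc 1 = 1 := by
  unfold loc
  rw [mul_one, L.idem]
  exact rho_self L.det

theorem loc_near {k : ℕ} {x y : Beh C.P C.dir} (h : Near k x y) (dx : Det x) :
    Near k (L.loc x) (L.loc y) :=
  rho_near L.det ((h.mul_left L.det dx).mul_right (L.det.mul dx) L.det)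

end LocData

/-- localisation with the halving count -/
theorem loc_count (C : Cover X) {i : X' → X} (L : LocData C i) {U : Set C.P}
    (hU : supp L.f ⊆ U) :
    ∃ (C' : Cover X') (U' : Set C'.P), 2 * U'.ncard + (supp L.f).ncard ≤ 2 * U.ncard ∧
      ∀ x s, (x, s) ∈ C.S → Closed i s → supp x ⊆ U →
        ∃ x', (x', res i s) ∈ C'.S ∧ supp x' ⊆ U' := by
  refine ⟨L.cover, {r | r.1 ∈ U}, rec_count L.det hU, fun x s h1 h2 h3 => ⟨L.loc x, ?_, ?_⟩⟩
  · have := L.loc_mem h1 (h2.mul L.closed)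
    rwa [res_mul h2, L.res_s, mul_one] at this
  · intro r hr
    by_contra hn
    have a : L.f.r r.1 r.1 := by
      by_contra b
      exact hn (hU b)
    have b : x.r r.1 r.1 := by
      by_contra b
      exact hn (h3 b)
    exact hr (rho_fix (mul_fix (mul_fix a b) a))

def Cover.Generic (C : Cover X) : Prop := ∀ e, (e, 1) ∈ C.S → e * e = e → e = 1

/-- the identity on the image of `i` -/
def kap (i : X' → X) : Rl X := ⟨fun a c => a = c ∧ ∃ b, a = i b⟩

theorem kap_idem (i : X' → X) : kap i * kap i = kap i := by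
  ext a c
  constructor
  · rintro ⟨b, ⟨rfl, h⟩, rfl, _⟩
    exact ⟨rfl, h⟩
  · rintro ⟨rfl, h⟩
    exact ⟨a, ⟨rfl, h⟩, rfl, h⟩

theorem pow_idem {M : Type} [Monoid M] {e : M} (h : e * e = e) {n : ℕ} (hn : 0 < n) :
    e ^ n = e := by
  obtain ⟨m, rfl⟩ := Nat.exists_eq_add_of_lt hn
  induction m with
  | zero => simp
  | succ m ih => rw [← add_assoc, pow_succ, ih (by omega), h]

theorem Cover.pow_mem (C : Cover X) {x : Beh C.P C.dir} {s : Rl X} (h : (x, s) ∈ C.S) (n : ℕ) :
    (x ^ n, s ^ n) ∈ C.S := C.S.pow_mem h n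

/-- generic localisation -/
theorem loc_generic (C : Cover X) {i : X' → X} (hi : Function.Injective i) :
    ∃ (C' : Cover X') (F : Beh C.P C.dir → Beh C'.P C'.dir), C'.Generic ∧ F 1 = 1 ∧
      (∀ x s, (x, s) ∈ C.S → (F x, res i s) ∈ C'.S) ∧
      ∀ k x y, Near k x y → Det x → Near k (F x) (F y) := by
  let lt : Beh C.P C.dir → Beh C.P C.dir → Prop := fun e f => e ≠ f ∧ f * e = e ∧ e * f = e
  haveI : IsTrans _ lt := ⟨by
    rintro e f g ⟨a1, a2, a3⟩ ⟨b1, b2, b3⟩
    refine ⟨?_, ?_, ?_⟩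
    · rintro rfl
      exact a1 (a3.symm.trans b2)
    · rw [← a2, ← mul_assoc, b2]
    · rw [← a3, mul_assoc, b3]⟩
  haveI : Std.Irrefl lt := ⟨fun e h => h.1 rfl⟩
  have wf : WellFounded lt := Finite.wellFounded_of_trans_of_irrefl lt
  obtain ⟨x0, hx0⟩ := C.surj (kap i)
  obtain ⟨n, hn, hidem⟩ := exists_idem_pow x0
  have hne : ({e | (e, kap i) ∈ C.S ∧ e * e = e} : Set (Beh C.P C.dir)).Nonempty := by
    refine ⟨x0 ^ n, ?_, hidem⟩
    have := C.pow_mem hx0 n
    rwa [pow_idem (kap_idem i) hn] at this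
  obtain ⟨f, ⟨hf1, hf2⟩, hmin⟩ := wf.has_min _ hne
  let L : LocData C i :=
    { f := f, s := kap i, mem := hf1, idem := hf2, inj := hi
      row := fun a c => ⟨fun h => h.1.symm, fun h => ⟨h.symm, a, rfl⟩⟩ }
  refine ⟨L.cover, L.loc, ?_, L.loc_one, ?_, fun k x y h dx => L.loc_near h dx⟩
  · rintro e ⟨x, s, a1, a2, a3, a4, h⟩ he
    obtain ⟨rfl, h2⟩ := Prod.ext_iff.1 h
    have dx := C.det _ a1
    have hxx : x * x = x := by
      refine rho_inj L.idem L.det (by rw [← mul_assoc, a2]) (by rw [mul_assoc, a3]) a2 a3 ?_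
      rw [rho_mul L.idem L.det a2 a3 a2 a3 dx dx]
      exact he
    have hs1 : kap i * s = s := C.fn _ (C.S.mul_mem hf1 a1) _ a1 a2
    have hs : s = kap i := by
      ext a c
      constructor
      · intro h3
        rw [← hs1] at h3
        obtain ⟨_, ⟨rfl, b, rfl⟩, h4⟩ := h3
        obtain ⟨d, rfl⟩ := a4 _ _ h4
        have : (1 : Rl X').r b d := by
          have h5 : (1 : Rl X') = res i s := h2
          rw [h5]; exact h4
        obtain rfl : b = d := this
        exact ⟨rfl, b, rfl⟩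
      · rintro ⟨rfl, b, rfl⟩
        have : (res i s).r b b := by
          have h5 : (1 : Rl X') = res i s := h2
          rw [← h5]; rfl
        exact this
    subst hs
    by_cases hxf : x = f
    · subst hxf
      exact rho_self L.det
    · exact absurd ⟨hxf, a2, a3⟩ (hmin x ⟨a1, hxx⟩)
  · intro x s h
    have hc : Closed i (s * kap i) := by
      rintro a c ⟨d, _, rfl, h2⟩
      exact h2
    have h1 := L.loc_mem h hc
    have h2 : res i (s * kap i) = res i s := by
      ext a b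
      constructor
      · rintro ⟨d, h3, rfl, _⟩
        exact h3
      · intro h3
        exact ⟨i b, h3, rfl, b, rfl⟩
    exact h2 ▸ h1

/-- the graph of a permutation -/
def gr (s : Equiv.Perm X) : Rl X := ⟨fun a b => a = s b⟩

theorem gr_one : gr (1 : Equiv.Perm X) = 1 := rfl

theorem gr_mul (s t : Equiv.Perm X) : gr (s * t) = gr s * gr t := by
  ext a c
  constructor
  · intro h
    exact ⟨t c, h, rfl⟩
  · rintro ⟨b, h1, h2⟩
    have h1' : a = s b := h1
    have h2' : b = t c := h2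
    show a = s (t c)
    rw [h1', h2']

theorem gr_pow (s : Equiv.Perm X) (n : ℕ) : gr (s ^ n) = gr s ^ n := by
  induction n with
  | zero => rfl
  | succ n ih => rw [pow_succ, pow_succ, gr_mul, ih]

theorem Cover.Generic.unit [Finite X] {C : Cover X} (hC : C.Generic) {x : Beh C.P C.dir}
    {s : Equiv.Perm X} (h : (x, gr s) ∈ C.S) :
    ∃ g : (Beh C.P C.dir)ˣ, g.val = x ∧ (g.inv, gr s⁻¹) ∈ C.S := by
  have hn : 0 < orderOf s := orderOf_pos s
  obtain ⟨m, hm, hidem⟩ := exists_idem_pow (x ^ orderOf s)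
  have h1 : ((x ^ orderOf s) ^ m, (1 : Rl X)) ∈ C.S := by
    have := C.pow_mem (C.pow_mem h (orderOf s)) m
    rwa [← gr_pow, pow_orderOf_eq_one, gr_one, one_pow] at this
  have h2 := hC _ h1 hidem
  rw [← pow_mul] at h2
  obtain ⟨k, hk⟩ : ∃ k, orderOf s * m = k + 1 := ⟨orderOf s * m - 1, by
    have := Nat.mul_pos hn hm; omega⟩
  refine ⟨⟨x, x ^ k, by rw [← pow_succ', ← hk, h2], by rw [← pow_succ, ← hk, h2]⟩, rfl, ?_⟩
  have h3 : s⁻¹ = s ^ k := by
    rw [inv_eq_iff_mul_eq_one, ← pow_succ', ← hk, pow_mul, pow_orderOf_eq_one, one_pow]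
  rw [h3, gr_pow]
  exact C.pow_mem h k

end Vale.Agent.P343
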