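import Vale.Agent.P343.Near

/-! Localisation of deterministic behaviours at an idempotent. -/

namespace Vale.Agent.P343

open Relation

variable {P : Type} {dir : P → Bool}

def Turn (f : Beh P dir) (q q' : P) : Prop := f.r q q' ∧ dir q' ≠ dir q

def Zig (f : Beh P dir) : P → P → Prop := ReflTransGen (Turn f)

def Rec (f : Beh P dir) (p : P) : Prop := ∃ p', f.r p p' ∧ dir p' = dir p ∧ Zig f p' p

def rho (f x : Beh P dir) : Beh {p // Rec f p} (fun p => dir p.1) :=
  ⟨fun r r' => ∃ q, x.r r.1 q ∧ dir q = dir r'.1 ∧ Zig f q r'.1⟩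

theorem blk_self (f : Beh P dir) (q : P) : blk f f q = f := by simp [blk]

theorem fst_self (f : Beh P dir) (q : P) : fst f f q = f := by simp [fst]

variable {f x y : Beh P dir}

theorem turn_mem (hl : f * x = x) (hr : x * f = x) {q q' : P} (h : Turn f q q') : x.r q q' := by
  cases hq : dir q
  · rw [← hr]; exact Or.inl ⟨by simpa [fst, hq] using h.1, h.2⟩
  · rw [← hl]; exact Or.inl ⟨by simpa [fst, hq] using h.1, h.2⟩

theorem mid_of_zig (hx : ∀ q q', Turn f q q' → x.r q q') (hy : ∀ q q', Turn f q q' → y.r q q')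
    {q r s : P} (h : Zig f q r) (hm : Mid x y r s) : Mid x y q s := by
  induction h using ReflTransGen.head_induction_on with
  | refl => exact hm
  | head h _ ih =>
    refine Mid.turn ?_ h.2 ih
    unfold blk; split_ifs
    · exact hy _ _ h
    · exact hx _ _ h

theorem Rec.not_turn (df : Det f) {r q : P} (h : Rec f r) : ¬ Turn f r q := by
  obtain ⟨p', h1, h2, _⟩ := h
  intro ht
  exact ht.2 (by rw [df _ _ _ ht.1 h1, h2])

theorem zig_term (df : Det f) {q r r' : P} (h : Zig f q r) (h' : Zig f q r') (hr : Rec f r)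
    (hr' : Rec f r') : r = r' := by
  have hu : Relator.RightUnique (Turn f) := fun a b c h1 h2 => df _ _ _ h1.1 h2.1
  rcases ReflTransGen.total_of_right_unique hu h h' with h1 | h1
  · rcases h1.cases_head with h2 | ⟨c, h2, _⟩
    · exact h2
    · exact absurd h2 (hr.not_turn df)
  · rcases h1.cases_head with h2 | ⟨c, h2, _⟩
    · exact h2.symm
    · exact absurd h2 (hr'.not_turn df)

theorem mid_self {q s : P} (h : Mid f f q s) : ∃ r, Zig f q r ∧ f.r r s ∧ dir s = dir r := by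
  induction h with
  | @exit q r a b => exact ⟨q, ReflTransGen.refl, by rwa [blk_self] at a, b⟩
  | turn a b _ ih =>
    obtain ⟨r, h1, h2⟩ := ih
    exact ⟨r, ReflTransGen.head ⟨by rwa [blk_self] at a, b⟩ h1, h2⟩

theorem through_rec (hf : f * f = f) (df : Det f) {p p1 : P} (h : f.r p p1)
    (hd : dir p1 = dir p) : ∃ r, Rec f r ∧ Zig f p1 r ∧ f.r r p1 ∧ dir p1 = dir r := by
  have h' : (f * f).r p p1 := by rwa [hf]
  rcases h' with ⟨_, a⟩ | ⟨q, a, _, c⟩
  · exact absurd hd a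
  · rw [fst_self] at a
    obtain rfl : q = p1 := df _ _ _ a h
    obtain ⟨r, h1, h2, h3⟩ := mid_self c
    exact ⟨r, ⟨q, h2, h3, h1⟩, h1, h2, h3⟩

theorem mid_last {q s : P} (h : Mid x y q s) : ∃ p, (blk x y p).r p s ∧ dir s = dir p := by
  induction h with
  | @exit q r a b => exact ⟨q, a, b⟩
  | turn _ _ _ ih => exact ih

theorem out_cases (hl : f * x = x) (hr : x * f = x) {p q : P} (h : x.r p q) :
    Turn f p q ∨ ∃ p', f.r p' q ∧ dir q = dir p' := by
  cases hq : dir q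
  · rw [← hl] at h
    rcases h with ⟨a, b⟩ | ⟨q0, _, _, c⟩
    · have hp : dir p = true := by simpa [hq] using b.symm
      exact Or.inl ⟨by simpa [fst, hp] using a, b⟩
    · obtain ⟨p', a, b⟩ := mid_last c
      have hp : dir p' = false := by rw [← b, hq]
      exact Or.inr ⟨p', by simpa [blk, hp] using a, hp.symm⟩
  · rw [← hr] at h
    rcases h with ⟨a, b⟩ | ⟨q0, _, _, c⟩
    · have hp : dir p = false := by simpa [hq] using b.symm
      exact Or.inl ⟨by simpa [fst, hp] using a, b⟩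
    · obtain ⟨p', a, b⟩ := mid_last c
      have hp : dir p' = true := by rw [← b, hq]
      exact Or.inr ⟨p', by simpa [blk, hp] using a, hp.symm⟩

theorem out_rec (hf : f * f = f) (df : Det f) (hl : f * x = x) (hr : x * f = x) {r q : P}
    (hrec : Rec f r) (h : x.r r q) :
    ∃ r', Rec f r' ∧ Zig f q r' ∧ f.r r' q ∧ dir q = dir r' := by
  rcases out_cases hl hr h with a | ⟨p', a, b⟩
  · exact absurd a (hrec.not_turn df)
  · exact through_rec hf df a b

theorem same_entry (df : Det f) (hl : f * x = x) (hr : x * f = x) {p r p1 q : P}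
    (h1 : f.r p p1) (h2 : f.r r p1) (d1 : dir p1 = dir p) (d2 : dir p1 = dir r)
    (h : x.r r q) : x.r p q := by
  cases hp : dir p
  · have hr' : dir r = false := by rw [← d2, d1, hp]
    rw [← hr] at h ⊢
    rcases h with ⟨a, b⟩ | ⟨q1, a, _, c⟩
    · have a' : f.r r q := by simpa [fst, hr'] using a
      rw [df _ _ _ a' h2] at b
      exact absurd d2 b
    · have a' : f.r r q1 := by simpa [fst, hr'] using a
      rw [df _ _ _ a' h2] at c
      exact Or.inr ⟨p1, by simpa [fst, hp] using h1, d1, c⟩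
  · have hr' : dir r = true := by rw [← d2, d1, hp]
    rw [← hl] at h ⊢
    rcases h with ⟨a, b⟩ | ⟨q1, a, _, c⟩
    · have a' : f.r r q := by simpa [fst, hr'] using a
      rw [df _ _ _ a' h2] at b
      exact absurd d2 b
    · have a' : f.r r q1 := by simpa [fst, hr'] using a
      rw [df _ _ _ a' h2] at c
      exact Or.inr ⟨p1, by simpa [fst, hp] using h1, d1, c⟩

theorem in_cases (hl : f * x = x) (hr : x * f = x) {p q : P} (h : x.r p q) :
    Turn f p q ∨ ∃ p1, f.r p p1 ∧ dir p1 = dir p := by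
  cases hp : dir p
  · rw [← hr] at h
    rcases h with ⟨a, b⟩ | ⟨q1, a, b, _⟩
    · exact Or.inl ⟨by simpa [fst, hp] using a, b⟩
    · exact Or.inr ⟨q1, by simpa [fst, hp] using a, by rw [b, hp]⟩
  · rw [← hl] at h
    rcases h with ⟨a, b⟩ | ⟨q1, a, b, _⟩
    · exact Or.inl ⟨by simpa [fst, hp] using a, b⟩
    · exact Or.inr ⟨q1, by simpa [fst, hp] using a, by rw [b, hp]⟩

theorem rho_le (hf : f * f = f) (df : Det f) (hl : f * x = x) (hr : x * f = x)
    (hl' : f * y = y) (hr' : y * f = y) (h : rho f x = rho f y) {p q : P} (hx : x.r p q) :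
    y.r p q := by
  rcases in_cases hl hr hx with a | ⟨p1, a, b⟩
  · exact turn_mem hl' hr' a
  · obtain ⟨r, r1, _, r3, r4⟩ := through_rec hf df a b
    have hx' : x.r r q := same_entry df hl hr r3 a r4 b hx
    obtain ⟨r', s1, s2, s3, s4⟩ := out_rec hf df hl hr r1 hx'
    have h1 : (rho f x).r ⟨r, r1⟩ ⟨r', s1⟩ := ⟨q, hx', s4, s2⟩
    rw [h] at h1
    obtain ⟨q', t1, _, t3⟩ := h1
    obtain ⟨r'', u1, u2, u3, _⟩ := out_rec hf df hl' hr' r1 t1
    obtain rfl : r' = r'' := zig_term df t3 u2 s1 u1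
    obtain rfl : q = q' := df _ _ _ s3 u3
    exact same_entry df hl' hr' a r3 b r4 t1

theorem rho_inj (hf : f * f = f) (df : Det f) (hl : f * x = x) (hr : x * f = x)
    (hl' : f * y = y) (hr' : y * f = y) (h : rho f x = rho f y) : x = y := by
  ext p q
  exact ⟨rho_le hf df hl hr hl' hr' h, rho_le hf df hl' hr' hl hr h.symm⟩

theorem rho_det (df : Det f) (dx : Det x) : Det (rho f x) := by
  rintro r r1 r2 ⟨q, a1, _, a3⟩ ⟨q', b1, _, b3⟩
  obtain rfl : q = q' := dx _ _ _ a1 b1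
  exact Subtype.ext (zig_term df a3 b3 r1.2 r2.2)

theorem rho_self (df : Det f) : rho f f = 1 := by
  ext r r'
  rw [one_r]
  obtain ⟨r, p, h1, h2, h3⟩ := r
  constructor
  · rintro ⟨q, a1, _, a3⟩
    obtain rfl : q = p := df _ _ _ a1 h1
    exact Subtype.ext (zig_term df a3 h3 r'.2 ⟨q, h1, h2, h3⟩)
  · rintro rfl
    exact ⟨p, h1, h2, h3⟩

theorem blk_rho (r : {p // Rec f p}) : blk (rho f x) (rho f y) r = rho f (blk x y r.1) := by
  unfold blk; split_ifs <;> rfl

theorem fst_rho (r : {p // Rec f p}) : fst (rho f x) (rho f y) r = rho f (fst x y r.1) := by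
  unfold fst; split_ifs <;> rfl

theorem mid_rho_of (hf : f * f = f) (df : Det f) (hl : f * x = x) (hr : x * f = x)
    (hl' : f * y = y) (hr' : y * f = y) (dx : Det x) (dy : Det y) {q1 q : P} (h : Mid x y q1 q) :
    ∀ r1 : {p // Rec f p}, Zig f q1 r1.1 →
      ∃ r' : {p // Rec f p}, Mid (rho f x) (rho f y) r1 r' ∧ dir q = dir r'.1 ∧ Zig f q r'.1 := by
  have bl : ∀ q, f * blk x y q = blk x y q := fun q => by unfold blk; split_ifs <;> assumption
  have br : ∀ q, blk x y q * f = blk x y q := fun q => by unfold blk; split_ifs <;> assumption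
  induction h with
  | @exit q1 q a b =>
    intro r1 hz
    rcases ReflTransGen.cases_head hz with h0 | ⟨c, h1, _⟩
    · subst h0
      obtain ⟨r', s1, s2, _, s4⟩ := out_rec hf df (bl _) (br _) r1.2 a
      refine ⟨⟨r', s1⟩, Mid.exit ?_ (by rw [← s4, b]), s4, s2⟩
      rw [blk_rho]
      exact ⟨q, a, s4, s2⟩
    · have := dx.blk dy _ _ _ _ a (turn_mem (bl _) (br _) h1)
      subst this
      exact absurd b h1.2
  | @turn q1 q' q a b _ ih =>
    intro r1 hz
    rcases ReflTransGen.cases_head hz with h0 | ⟨c, h1, h2⟩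
    · subst h0
      obtain ⟨r2, s1, s2, _, s4⟩ := out_rec hf df (bl _) (br _) r1.2 a
      obtain ⟨r', t1, t2⟩ := ih ⟨r2, s1⟩ s2
      refine ⟨r', Mid.turn (q' := ⟨r2, s1⟩) ?_ (by rw [← s4]; exact b) t1, t2⟩
      rw [blk_rho]
      exact ⟨q', a, s4, s2⟩
    · have := dx.blk dy _ _ _ _ a (turn_mem (bl _) (br _) h1)
      subst this
      exact ih r1 h2

theorem mid_of_rho (hl : f * x = x) (hr : x * f = x) (hl' : f * y = y) (hr' : y * f = y)
    {r1 r' : {p // Rec f p}} (h : Mid (rho f x) (rho f y) r1 r') :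
    ∃ q, Mid x y r1.1 q ∧ dir q = dir r'.1 ∧ Zig f q r'.1 := by
  induction h with
  | exit a b =>
    rw [blk_rho] at a
    obtain ⟨q, a1, a2, a3⟩ := a
    exact ⟨q, Mid.exit a1 (a2.trans b), a2, a3⟩
  | turn a b _ ih =>
    rw [blk_rho] at a
    obtain ⟨q2, a1, a2, a3⟩ := a
    obtain ⟨q, c1, c2⟩ := ih
    refine ⟨q, Mid.turn a1 (by rw [a2]; exact b) ?_, c2⟩
    exact mid_of_zig (fun _ _ => turn_mem hl hr) (fun _ _ => turn_mem hl' hr') a3 c1

theorem rho_mul (hf : f * f = f) (df : Det f) (hl : f * x = x) (hr : x * f = x)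
    (hl' : f * y = y) (hr' : y * f = y) (dx : Det x) (dy : Det y) :
    rho f (x * y) = rho f x * rho f y := by
  have bl : ∀ q, f * fst x y q = fst x y q := fun q => by unfold fst; split_ifs <;> assumption
  have br : ∀ q, fst x y q * f = fst x y q := fun q => by unfold fst; split_ifs <;> assumption
  ext r r'
  rw [mul_r, fst_rho]
  constructor
  · rintro ⟨q, (⟨a, b⟩ | ⟨q1, a, b, c⟩), d, e⟩
    · exact Or.inl ⟨⟨q, a, d, e⟩, by rw [← d]; exact b⟩
    · obtain ⟨r1, s1, s2, _, s4⟩ := out_rec hf df (bl _) (br _) r.2 a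
      obtain ⟨r'', t1, _, t3⟩ := mid_rho_of hf df hl hr hl' hr' dx dy c ⟨r1, s1⟩ s2
      obtain rfl : r' = r'' := Subtype.ext (zig_term df e t3 r'.2 r''.2)
      exact Or.inr ⟨⟨r1, s1⟩, ⟨q1, a, s4, s2⟩, by rw [← s4, b], t1⟩
  · rintro (⟨⟨q, a, d, e⟩, b⟩ | ⟨r1, ⟨q1, a, d, e⟩, b, c⟩)
    · exact ⟨q, Or.inl ⟨a, by rw [d]; exact b⟩, d, e⟩
    · obtain ⟨q, t1, t2, t3⟩ := mid_of_rho hl hr hl' hr' c
      refine ⟨q, Or.inr ⟨q1, a, d.trans b, ?_⟩, t2, t3⟩
      exact mid_of_zig (fun _ _ => turn_mem hl hr) (fun _ _ => turn_mem hl' hr') e t1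

theorem rho_near [Finite P] (df : Det f) {k : ℕ} (h : Near k x y) :
    Near k (rho f x) (rho f y) := by
  obtain ⟨Q, h1, h2⟩ := h
  refine ⟨{r' | ∃ q ∈ Q, Zig f q r'.1}, le_trans (ncard_img_le _ _ ?_) h1, ?_⟩
  · intro q a b ha hb
    exact Subtype.ext (zig_term df ha hb a.2 b.2)
  · rintro r r' ⟨q, a, b, c⟩ hn
    exact ⟨q, h2 _ _ a fun d => hn ⟨q, d, c⟩, b, c⟩

theorem rho_fix {r : {p // Rec f p}} (h : x.r r.1 r.1) : (rho f x).r r r :=
  ⟨r.1, h, rfl, ReflTransGen.refl⟩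

theorem rec_count [Finite P] (df : Det f) {U : Set P} (hU : supp f ⊆ U) :
    2 * {r : {p // Rec f p} | r.1 ∈ U}.ncard + (supp f).ncard ≤ 2 * U.ncard := by
  have h1 : {r : {p // Rec f p} | r.1 ∈ U}.ncard = (U ∩ {p | Rec f p}).ncard := by
    rw [← Set.ncard_image_of_injective _ Subtype.val_injective]
    congr 1
    ext p
    simp only [Set.mem_image, Set.mem_setOf_eq, Subtype.exists, exists_and_right, exists_eq_right,
      Set.mem_inter_iff, exists_prop]
    exact and_comm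
  have h2 := Set.ncard_inter_add_ncard_diff_eq_ncard U {p | Rec f p} (Set.toFinite _)
  have h3 := Set.ncard_inter_add_ncard_diff_eq_ncard (supp f) {p | Rec f p} (Set.toFinite _)
  have h4 : (supp f \ {p | Rec f p}).ncard ≤ (U \ {p | Rec f p}).ncard :=
    Set.ncard_le_ncard (Set.diff_subset_diff_left hU) (Set.toFinite _)
  have h5 : (supp f ∩ {p | Rec f p}).ncard ≤ (supp f \ {p | Rec f p}).ncard := by
    refine le_trans (Set.ncard_le_ncard ?_ (Set.toFinite _))
      (ncard_img_le (supp f \ {p | Rec f p}) (fun q r => Rec f r ∧ Zig f q r) ?_)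
    · rintro r ⟨a, q, b, c, d⟩
      rcases ReflTransGen.cases_head d with h0 | ⟨q', e, _⟩
      · subst h0; exact absurd b a
      · refine ⟨q, ⟨fun g => e.2 ?_, fun g => Rec.not_turn df g e⟩, ⟨q, b, c, d⟩, d⟩
        rw [df _ _ _ e.1 g]
    · rintro q a b ⟨a1, a2⟩ ⟨b1, b2⟩
      exact zig_term df a2 b2 a1 b1
  omega

end Vale.Agent.P343
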