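import Vale.Agent.P343.Auto

/-! The exponential lower bound and its polynomial consequence. -/

namespace Vale.Agent.P343

open Filter Topology

theorem expo_bound (k : ℕ) : ∃ (A Q : Type) (_ : Fintype A) (_ : Fintype Q) (N : TwoNFA A Q),
    N.OneWay ∧ Fintype.card Q = 2066 * k + 4 ∧
      ∀ (Q' : Type) [Fintype Q'] (D : TwoNFA A Q'), D.Deterministic → D.lang = N.lang →
        2 ^ k ≤ 2 * (Fintype.card Q' + 1) :=
  ⟨Rl (Fin (2066 * k + 2)), Option (Option (Fin (2066 * k + 2))), Fintype.ofFinite _,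
    inferInstance, owl _, owl_oneWay, by simp, fun _ _ D hD hL => owl_lower k D hD hL⟩

theorem poly_lt_pow (p : Polynomial ℝ) :
    ∃ k : ℕ, 2 * (p.eval ((2066 * k + 4 : ℕ) : ℝ) + 1) < 2 ^ k := by
  have hl : 0 < Real.log 2 := Real.log_pos (by norm_num)
  let q : Polynomial ℝ := Polynomial.C 2 *
    (p.comp (Polynomial.C (2066 / Real.log 2) * Polynomial.X + Polynomial.C 4) + 1)
  have h1 := Polynomial.tendsto_div_exp_atTop q
  have h2 : Tendsto (fun k : ℕ => (k : ℝ) * Real.log 2) atTop atTop :=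
    tendsto_natCast_atTop_atTop.atTop_mul_const hl
  obtain ⟨k, hk⟩ := ((h1.comp h2).eventually (gt_mem_nhds zero_lt_one)).exists
  refine ⟨k, ?_⟩
  simp only [Function.comp_apply] at hk
  rw [div_lt_one (Real.exp_pos _), Real.exp_nat_mul, Real.exp_log (by norm_num)] at hk
  have h3 : 2066 / Real.log 2 * ((k : ℝ) * Real.log 2) + 4 = ((2066 * k + 4 : ℕ) : ℝ) := by
    push_cast
    field_simp
  simpa only [q, Polynomial.eval_mul, Polynomial.eval_C, Polynomial.eval_add,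
    Polynomial.eval_comp, Polynomial.eval_X, Polynomial.eval_one, h3] using hk

theorem no_poly_oneWay : ¬ ∃ p : Polynomial ℝ, ∀ (A Q : Type) [Fintype A] [Fintype Q]
    (N : TwoNFA A Q), N.OneWay → ∃ (Q' : Type) (_ : Fintype Q') (D : TwoNFA A Q'),
      D.Deterministic ∧ D.lang = N.lang ∧
        (Fintype.card Q' : ℝ) ≤ p.eval (Fintype.card Q : ℝ) := by
  rintro ⟨p, hp⟩
  obtain ⟨k, hk⟩ := poly_lt_pow p
  obtain ⟨A, Q, _, _, N, h1, h2, h3⟩ := expo_bound k
  obtain ⟨Q', _, D, h4, h5, h6⟩ := hp A Q N h1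
  have h7 : ((2 ^ k : ℕ) : ℝ) ≤ ((2 * (Fintype.card Q' + 1) : ℕ) : ℝ) :=
    Nat.cast_le.2 (h3 Q' D h4 h5)
  rw [h2] at h6
  push_cast at h7 hk h6
  linarith

end Vale.Agent.P343
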