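import Vale.Agent.P343.Beh

/-! Behaviours that agree outside a small set of exit ports. -/

namespace Vale.Agent.P343

open Relation

variable {P : Type} {dir : P → Bool}

/-- the ports that are not passed straight through -/
def supp (x : Beh P dir) : Set P := {p | ¬ x.r p p}

def Near (k : ℕ) (x y : Beh P dir) : Prop :=
  ∃ Q : Set P, Q.ncard ≤ k ∧ ∀ p q, x.r p q → q ∉ Q → y.r p q

theorem ncard_img_le {A B : Type} [Finite A] (Q : Set A) (V : A → B → Prop)
    (hV : ∀ q a b, V q a → V q b → a = b) : {a | ∃ q ∈ Q, V q a}.ncard ≤ Q.ncard := by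
  classical
  rcases Set.eq_empty_or_nonempty {a | ∃ q ∈ Q, V q a} with h | ⟨a0, _⟩
  · rw [h]; simp
  · let g : A → B := fun q => if h : ∃ a, V q a then Classical.choose h else a0
    refine le_trans (Set.ncard_le_ncard (t := g '' Q) ?_ (Set.toFinite _))
      (Set.ncard_image_le (Set.toFinite _))
    rintro a ⟨q, hq, hqa⟩
    refine ⟨q, hq, ?_⟩
    have h : ∃ a, V q a := ⟨a, hqa⟩
    simp only [g, dif_pos h]
    exact hV q _ _ (Classical.choose_spec h) hqa

theorem near_refl (x : Beh P dir) : Near 0 x x := ⟨∅, by simp, fun _ _ h _ => h⟩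

theorem Near.mono {k l : ℕ} {x y : Beh P dir} (h : Near k x y) (hkl : k ≤ l) : Near l x y := by
  obtain ⟨Q, h1, h2⟩ := h
  exact ⟨Q, h1.trans hkl, h2⟩

theorem Near.trans {k l : ℕ} {x y z : Beh P dir} (h : Near k x y) (h' : Near l y z) :
    Near (k + l) x z := by
  obtain ⟨Q, h1, h2⟩ := h
  obtain ⟨Q', h1', h2'⟩ := h'
  refine ⟨Q ∪ Q', (Set.ncard_union_le _ _).trans (add_le_add h1 h1'), fun p q a b => ?_⟩
  exact h2' p q (h2 p q a fun c => b (Or.inl c)) fun c => b (Or.inr c)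

theorem near_one_left (x : Beh P dir) : Near (supp x).ncard 1 x := by
  refine ⟨supp x, le_rfl, fun p q a b => ?_⟩
  rw [one_r] at a
  subst a
  simpa [supp] using b

theorem near_one_right [Finite P] {x : Beh P dir} (hx : Det x) : Near (supp x).ncard x 1 := by
  refine ⟨{a | ∃ q ∈ supp x, x.r q a}, ncard_img_le _ _ hx, fun p q a b => ?_⟩
  rw [one_r]
  by_contra hne
  refine b ⟨p, fun hp => hne (hx _ _ _ a hp), a⟩

theorem Near.supp_le [Finite P] {k : ℕ} {x : Beh P dir} (h : Near k 1 x) :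
    (supp x).ncard ≤ k := by
  obtain ⟨Q, h1, h2⟩ := h
  refine le_trans (Set.ncard_le_ncard (fun p hp => ?_) (Set.toFinite _)) h1
  by_contra hq
  exact hp (h2 p p ((one_r _ _).2 rfl) hq)

theorem Near.mul [Finite P] {k l : ℕ} {x x' y y' : Beh P dir} (h : Near k x x') (h' : Near l y y')
    (dx : Det x) (dy : Det y) : Near (k + l) (x * y) (x' * y') := by
  obtain ⟨Q, h1, h2⟩ := h
  obtain ⟨Q', h1', h2'⟩ := h'
  let A : Set P := {r | ∃ q ∈ Q, (dir q = false ∧ r = q) ∨ (dir q = true ∧ Mid x y q r)}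
  let B : Set P := {r | ∃ q ∈ Q', (dir q = true ∧ r = q) ∨ (dir q = false ∧ Mid x y q r)}
  have hA : A.ncard ≤ k := by
    refine le_trans (ncard_img_le _ _ ?_) h1
    rintro q a b (⟨c, rfl⟩ | ⟨c, d⟩) (⟨c', d'⟩ | ⟨c', d'⟩)
    · exact d'.symm
    · simp [c] at c'
    · simp [c] at c'
    · exact d.det dx dy d'
  have hB : B.ncard ≤ l := by
    refine le_trans (ncard_img_le _ _ ?_) h1'
    rintro q a b (⟨c, rfl⟩ | ⟨c, d⟩) (⟨c', d'⟩ | ⟨c', d'⟩)
    · exact d'.symm
    · simp [c] at c'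
    · simp [c] at c'
    · exact d.det dx dy d'
  have key : ∀ q r, Mid x y q r → r ∉ A → r ∉ B → Mid x' y' q r := by
    intro q r hm ha hb
    induction hm with
    | @exit q r a b =>
      refine Mid.exit ?_ b
      cases hq : dir q
      · simp only [blk, hq, Bool.false_eq_true, if_false] at a ⊢
        exact h2 _ _ a fun c => ha ⟨r, c, Or.inl ⟨by rw [b, hq], rfl⟩⟩
      · simp only [blk, hq, if_true] at a ⊢
        exact h2' _ _ a fun c => hb ⟨r, c, Or.inl ⟨by rw [b, hq], rfl⟩⟩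
    | @turn q q' r a b c ih =>
      refine Mid.turn ?_ b (ih ha hb)
      cases hq : dir q
      · simp only [blk, hq, Bool.false_eq_true, if_false] at a ⊢
        exact h2 _ _ a fun d => ha ⟨q', d, Or.inr ⟨by simpa [hq] using b, c⟩⟩
      · simp only [blk, hq, if_true] at a ⊢
        exact h2' _ _ a fun d => hb ⟨q', d, Or.inr ⟨by simpa [hq] using b, c⟩⟩
  refine ⟨A ∪ B, (Set.ncard_union_le _ _).trans (add_le_add hA hB), ?_⟩
  intro p r hr hn
  have ha : r ∉ A := fun c => hn (Or.inl c)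
  have hb : r ∉ B := fun c => hn (Or.inr c)
  rcases hr with ⟨a, b⟩ | ⟨q, a, b, c⟩
  · refine Or.inl ⟨?_, b⟩
    cases hp : dir p
    · simp only [fst, hp, Bool.false_eq_true, if_false] at a ⊢
      exact h2' _ _ a fun c => hb ⟨r, c, Or.inl ⟨by simpa [hp] using b, rfl⟩⟩
    · simp only [fst, hp, if_true] at a ⊢
      exact h2 _ _ a fun c => ha ⟨r, c, Or.inl ⟨by simpa [hp] using b, rfl⟩⟩
  · refine Or.inr ⟨q, ?_, b, key _ _ c ha hb⟩
    cases hp : dir p
    · simp only [fst, hp, Bool.false_eq_true, if_false] at a ⊢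
      exact h2' _ _ a fun d => hb ⟨q, d, Or.inr ⟨by rw [b, hp], c⟩⟩
    · simp only [fst, hp, if_true] at a ⊢
      exact h2 _ _ a fun d => ha ⟨q, d, Or.inr ⟨by rw [b, hp], c⟩⟩

theorem Near.mul_left [Finite P] {k : ℕ} {x y y' : Beh P dir} (h : Near k y y')
    (dx : Det x) (dy : Det y) : Near k (x * y) (x * y') := by
  simpa using (near_refl x).mul h dx dy

theorem Near.mul_right [Finite P] {k : ℕ} {x x' y : Beh P dir} (h : Near k x x')
    (dx : Det x) (dy : Det y) : Near k (x * y) (x' * y) := by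
  simpa using h.mul (near_refl y) dx dy

theorem supp_pow (x : Beh P dir) (n : ℕ) : supp (x ^ n) ⊆ supp x :=
  fun _ hp hx => hp (pow_fix hx n)

end Vale.Agent.P343
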