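import Vale.Agent.P343.Chain
import Vale.Agent.P343.Avg

/-! The doubling step. -/

namespace Vale.Agent.P343

variable {X X' : Type}

theorem gr_conj (s : Equiv.Perm X) (t : Rl X) : gr s * t * gr s⁻¹ = res (⇑s⁻¹) t := by
  ext c d
  constructor
  · rintro ⟨e', ⟨e, h1, h2⟩, h3⟩
    have h1' : c = s e := h1
    have h3' : e' = s⁻¹ d := h3
    subst h1' h3'
    simpa [res] using h2
  · intro h
    exact ⟨s⁻¹ d, ⟨s⁻¹ c, by simp [gr], h⟩, rfl⟩

theorem res_star (s : Equiv.Perm X) (A : Set X) (b : X) :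
    res (⇑s⁻¹) (star A b) = star (⇑s⁻¹ ⁻¹' A) (s b) := by
  ext c d
  simp only [res, star, Set.mem_preimage, EmbeddingLike.apply_eq_iff_eq,
    Equiv.Perm.inv_eq_iff_eq]

theorem all_edges [Finite X] {C : Cover X} (hC : C.Generic) {a b : X} (hab : a ≠ b)
    {x : Beh C.P C.dir} (hx : (x, star {a} b) ∈ C.S) {c d : X} (hcd : c ≠ d) :
    ∃ y, (y, star {c} d) ∈ C.S ∧ (supp y).ncard ≤ (supp x).ncard := by
  classical
  obtain ⟨s, h1, h2, _⟩ := exists_perm_two hab hcd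
  obtain ⟨z, hz⟩ := C.surj (gr s)
  obtain ⟨g, rfl, hg⟩ := hC.unit hz
  refine ⟨g.val * x * g.inv, ?_, ?_⟩
  · have h3 : (g.val * x * g.inv, gr s * star {a} b * gr s⁻¹) ∈ C.S :=
      C.S.mul_mem (C.S.mul_mem hz hx) hg
    rw [gr_conj, res_star, h2] at h3
    have h4 : (⇑s⁻¹ ⁻¹' {a} : Set X) = {c} := by
      ext e
      simp only [Set.mem_preimage, Set.mem_singleton_iff, Equiv.Perm.inv_eq_iff_eq, h1]
    rwa [h4] at h3
  · have dg := C.det _ hz
    have h3 := ((near_one_left x).mul_left dg det_one).mul_right (dg.mul det_one) (C.det _ hg)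
    rw [mul_one, g.val_inv] at h3
    exact h3.supp_le

theorem quot_lift [Finite X] {C : Cover X} (hC : C.Generic) {x y : Beh C.P C.dir} {t : Rl X}
    (hx : (x, 1) ∈ C.S) (hy : (y, t) ∈ C.S) {k : ℕ} (h : Near k x y) :
    ∃ z, (z, t) ∈ C.S ∧ (supp z).ncard ≤ k := by
  obtain ⟨g, rfl, hg⟩ := hC.unit (s := 1) hx
  refine ⟨y * g.inv, ?_, ?_⟩
  · have : (y * g.inv, t * gr 1⁻¹) ∈ C.S := C.S.mul_mem hy hg
    rwa [inv_one, gr_one, mul_one] at this
  · have h3 := h.mul_right (C.det _ hx) (C.det _ hg)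
    rw [g.val_inv] at h3
    exact h3.supp_le

theorem res_three {f : X' → X} (hf : Function.Injective f) {w1 w2 : X} (hw : w1 ≠ w2)
    (h1 : ∀ a, f a ≠ w1) (h2 : ∀ a, f a ≠ w2) (i j k l a b : X') :
    (res f ((⟨fun c d => (c = f i ∧ d = w1) ∨ (c = f j ∧ d = w2) ∨
      (c ≠ f i ∧ c ≠ f j ∧ d = c)⟩ : Rl X) * (star {w1} (f k) * star {w2} (f l)))).r a b ↔
      (a = i ∧ b = k) ∨ (a = j ∧ b = l) ∨ (a ≠ i ∧ a ≠ j ∧ a = b) := by
  constructor
  · rintro ⟨e, h3, e', h4, h5⟩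
    simp only [star, Set.mem_singleton_iff] at h4 h5
    rcases h3 with ⟨a1, rfl⟩ | ⟨a1, rfl⟩ | ⟨a1, a2, rfl⟩
    · refine Or.inl ⟨hf a1, ?_⟩
      rcases h4 with rfl | ⟨_, rfl⟩
      · rcases h5 with h5 | ⟨h5, _⟩
        · exact absurd h5.symm (h1 _)
        · exact absurd h5 hw
      · rcases h5 with h5 | ⟨h5, _⟩
        · exact (hf h5).symm
        · exact absurd h5 (h2 _)
    · refine Or.inr (Or.inl ⟨hf a1, ?_⟩)
      rcases h4 with rfl | ⟨h4, _⟩
      · rcases h5 with h5 | ⟨_, h5⟩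
        · exact absurd h5.symm (h2 _)
        · exact hf h5
      · exact absurd h4.symm hw
    · refine Or.inr (Or.inr ⟨fun e => a1 (by rw [e]), fun e => a2 (by rw [e]), ?_⟩)
      rcases h4 with rfl | ⟨h4, _⟩
      · rcases h5 with h5 | ⟨h5, _⟩
        · exact hf h5
        · exact absurd h5 (h2 _)
      · exact absurd h4 (h1 _)
  · rintro (⟨rfl, rfl⟩ | ⟨rfl, rfl⟩ | ⟨a1, a2, rfl⟩)
    · exact ⟨w1, Or.inl ⟨rfl, rfl⟩, f b, Or.inr ⟨rfl, rfl⟩, Or.inl rfl⟩
    · exact ⟨w2, Or.inr (Or.inl ⟨rfl, rfl⟩), w2, Or.inl rfl, Or.inr ⟨rfl, rfl⟩⟩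
    · exact ⟨f a, Or.inr (Or.inr ⟨fun e => a1 (hf e), fun e => a2 (hf e), rfl⟩), f a,
        Or.inl rfl, Or.inl rfl⟩

theorem step_two [Finite X'] [DecidableEq X'] (C : Cover X) (B : ℕ)
    (hB : ∀ c d, c ≠ d → ∃ y, (y, star {c} d) ∈ C.S ∧ (supp y).ncard ≤ B)
    {f : X' → X} (hf : Function.Injective f) {w1 w2 : X} (hw : w1 ≠ w2)
    (h1 : ∀ a, f a ≠ w1) (h2 : ∀ a, f a ≠ w2) :
    ∃ C' : Cover X', C'.Generic ∧
      (∀ i j, i ≠ j → ∃ t, (t, gr (Equiv.swap i j)) ∈ C'.S ∧ (supp t).ncard ≤ 4 * B) ∧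
      ∀ Y b, ∃ x, (x, star Y b) ∈ C'.S ∧ (supp x).ncard ≤ B := by
  obtain ⟨C', F, hG, _, hF, hN⟩ := loc_generic C hf
  refine ⟨C', hG, fun i j hij => ?_, fun Y b => ?_⟩
  · obtain ⟨u, hu⟩ := C.surj ⟨fun c d => (c = f i ∧ d = w1) ∨ (c = f j ∧ d = w2) ∨
      (c ≠ f i ∧ c ≠ f j ∧ d = c)⟩
    obtain ⟨x1, a1, b1⟩ := hB w1 (f i) (h1 _).symm
    obtain ⟨x2, a2, b2⟩ := hB w2 (f j) (h2 _).symm
    obtain ⟨x3, a3, b3⟩ := hB w1 (f j) (h1 _).symm
    obtain ⟨x4, a4, b4⟩ := hB w2 (f i) (h2 _).symm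
    have m1 := hF _ _ (C.S.mul_mem hu (C.S.mul_mem a1 a2))
    have m2 := hF _ _ (C.S.mul_mem hu (C.S.mul_mem a3 a4))
    have d1 := C.det _ a1
    have d2 := C.det _ a2
    have n1 : Near (B + B) (x1 * x2) (1 * 1) :=
      ((near_one_right d1).mono b1).mul ((near_one_right d2).mono b2) d1 d2
    have n2 : Near (B + B) (1 * 1) (x3 * x4) :=
      ((near_one_left x3).mono b3).mul ((near_one_left x4).mono b4) det_one det_one
    have n3 := hN _ _ _ (((n1.trans n2).mono (l := 4 * B) (by omega)).mul_left (C.det _ hu)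
      (d1.mul d2)) ((C.det _ hu).mul (d1.mul d2))
    refine quot_lift hG ?_ ?_ n3
    · refine (congrArg (fun s => (F (u * (x1 * x2)), s) ∈ C'.S) ?_).mp m1
      ext a b
      refine (res_three hf hw h1 h2 i j i j a b).trans ?_
      rw [Rl.one_r]
      constructor
      · rintro (⟨rfl, rfl⟩ | ⟨rfl, rfl⟩ | ⟨_, _, rfl⟩) <;> rfl
      · rintro rfl
        tauto
    · refine (congrArg (fun s => (F (u * (x3 * x4)), s) ∈ C'.S) ?_).mp m2
      ext a b
      refine (res_three hf hw h1 h2 i j j i a b).trans ?_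
      show _ ↔ a = Equiv.swap i j b
      constructor
      · rintro (⟨rfl, rfl⟩ | ⟨rfl, rfl⟩ | ⟨a1, a2, rfl⟩)
        · simp
        · simp
        · rw [Equiv.swap_apply_of_ne_of_ne a1 a2]
      · rintro rfl
        by_cases hi : b = i
        · subst hi; simp
        · by_cases hj : b = j
          · subst hj; simp
          · rw [Equiv.swap_apply_of_ne_of_ne hi hj]
            tauto
  · obtain ⟨u, hu⟩ := C.surj (star (f '' Y) w1)
    obtain ⟨x1, a1, b1⟩ := hB w1 (f b) (h1 _).symm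
    have m1 := hF _ _ hu
    have m2 := hF _ _ (C.S.mul_mem hu a1)
    have n1 := ((near_one_left x1).mono b1).mul_left (C.det _ hu) det_one
    rw [mul_one] at n1
    refine quot_lift hG ?_ ?_ (hN _ _ _ n1 (C.det _ hu))
    · refine (congrArg (fun s => (F u, s) ∈ C'.S) ?_).mp m1
      ext a c
      rw [Rl.one_r]
      constructor
      · rintro (e | ⟨_, e⟩)
        · exact hf e
        · exact absurd e (h1 _)
      · rintro rfl
        exact Or.inl rfl
    · refine (congrArg (fun s => (F (u * x1), s) ∈ C'.S) ?_).mp m2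
      ext a c
      constructor
      · rintro ⟨e, (rfl | ⟨⟨y, hy, e1⟩, rfl⟩), (e2 | ⟨e2, e3⟩)⟩
        · exact Or.inl (hf e2)
        · exact absurd e2 (h1 _)
        · exact absurd e2.symm (h1 _)
        · exact Or.inr ⟨hf e1 ▸ hy, hf e3⟩
      · rintro (rfl | ⟨hy, rfl⟩)
        · exact ⟨f a, Or.inl rfl, Or.inl rfl⟩
        · exact ⟨w1, Or.inr ⟨⟨a, hy, rfl⟩, rfl⟩, Or.inr ⟨rfl, rfl⟩⟩

/-- units lying over permutations that fix everything outside `Z` -/
def unitGrp [Finite X] (C : Cover X) (Z : Finset X) :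
    Subgroup ((Beh C.P C.dir)ˣ × Equiv.Perm X) where
  carrier := {g | (g.1.val, gr g.2) ∈ C.S ∧ ∀ c, c ∉ Z → g.2 c = c}
  one_mem' := ⟨C.S.one_mem, fun _ _ => rfl⟩
  mul_mem' := by
    rintro a b ⟨a1, a2⟩ ⟨b1, b2⟩
    refine ⟨?_, fun c hc => ?_⟩
    · have := C.S.mul_mem a1 b1
      rwa [Prod.mk_mul_mk, ← gr_mul] at this
    · show a.2 (b.2 c) = c
      rw [b2 c hc, a2 c hc]
  inv_mem' := by
    rintro a ⟨a1, a2⟩
    refine ⟨?_, fun c hc => ?_⟩
    · have h1 : a⁻¹ = a ^ (orderOf a - 1) := by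
        rw [inv_eq_iff_mul_eq_one, ← pow_succ', Nat.sub_add_cancel (orderOf_pos a),
          pow_orderOf_eq_one]
      rw [h1, Prod.pow_fst, Prod.pow_snd, gr_pow, Units.val_pow_eq_pow_val]
      exact C.pow_mem a1 _
    · show a.2⁻¹ c = c
      rw [Equiv.Perm.inv_eq_iff_eq, a2 c hc]

theorem step_three [Finite X] [DecidableEq X] {h b0 : ℕ} (hP : Pb h b0) (C : Cover X)
    (hG : C.Generic) (B M T : ℕ) (hM : 0 < M)
    (ht : ∀ i j, i ≠ j → ∃ t, (t, gr (Equiv.swap i j)) ∈ C.S ∧ (supp t).ncard ≤ 4 * B)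
    (hx : ∀ Y b, ∃ x, (x, star Y b) ∈ C.S ∧ (supp x).ncard ≤ B)
    (Y J : Finset X) (b : X) (hY : Y.card = M) (hJ : J.card = M) (hYJ : Disjoint Y J)
    (hbY : b ∉ Y) (hbJ : b ∉ J) (hX : h + 2 * M ≤ Nat.card X) :
    T * (M * b0) ≤ 2 * (T * B + T * (T * (4 * B)) + 4 * M * B) := by
  classical
  have := Fintype.ofFinite C.P
  have := Fintype.ofFinite (unitGrp C (Y ∪ J))
  obtain ⟨i0, hi0⟩ : Y.Nonempty := Finset.card_pos.1 (by omega)
  obtain ⟨j0, hj0⟩ : J.Nonempty := Finset.card_pos.1 (by omega)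
  have hij : i0 ≠ j0 := fun e => Finset.disjoint_left.1 hYJ hi0 (e ▸ hj0)
  obtain ⟨t0, ht1, ht2⟩ := ht i0 j0 hij
  obtain ⟨t, rfl, _⟩ := hG.unit ht1
  obtain ⟨x, hx1, hx2⟩ := hx (Y : Set X) b
  let τ : unitGrp C (Y ∪ J) := ⟨(t, Equiv.swap i0 j0), ht1, fun c hc =>
    Equiv.swap_apply_of_ne_of_ne (fun e => hc (e ▸ Finset.mem_union_left _ hi0))
      (fun e => hc (e ▸ Finset.mem_union_right _ hj0))⟩
  let a : unitGrp C (Y ∪ J) → C.P → C.P := fun g => act g.1.1
  have ha : ∀ g h p, a (g * h) p = a h (a g p) := fun g h p => act_mul _ _ _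
  have hinj : ∀ g, Function.Injective (a g) := fun g => act_inj _
  obtain ⟨Cs, c1, c2, c3⟩ := avg_dense a ha hinj (supp t.val).toFinset (supp x).toFinset T
  let π : unitGrp C (Y ∪ J) →* Equiv.Perm X :=
    (MonoidHom.snd _ _).comp (unitGrp C (Y ∪ J)).subtype
  have hπ : ∀ g, π g = g.1.2 := fun g => rfl
  let E : unitGrp C (Y ∪ J) → Finset C.P := fun g =>
    ((supp x).toFinset \ Cs).filter fun c => a g c ∈ (supp t.val).toFinset
  obtain ⟨s, s1, s2⟩ := avg_fibre π Y J M hM hY hJ hYJ i0 j0 (Finset.mem_union_left _ hi0)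
    (Finset.mem_union_right _ hj0) hij
    (fun g c hc => by
      by_contra hn
      have h1 := g.2.2 _ hn
      rw [← hπ] at h1
      rw [(π g).injective h1] at hn
      exact hn hc)
    (fun c hc d hd hcd c' hc' d' hd' hcd' => by
      obtain ⟨k, k1, k2, k3⟩ := exists_perm_two hcd hcd'
      obtain ⟨z, hz⟩ := C.surj (gr k)
      obtain ⟨g, rfl, _⟩ := hG.unit hz
      exact ⟨⟨(g, k), hz, fun z hz => k3 z (fun e => hz (e ▸ hc)) (fun e => hz (e ▸ hd))
        (fun e => hz (e ▸ hc')) (fun e => hz (e ▸ hd'))⟩, k1, k2⟩)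
    (fun g => (E g).card)
  let tj : X → unitGrp C (Y ∪ J) := fun j => s j * τ * (s j)⁻¹
  let U : Finset C.P := (supp x).toFinset ∪ Cs ∪
    J.biUnion fun j => Finset.univ.filter fun p => a (tj j) p ∈ E (s j)
  have hxB : (supp x).toFinset.card ≤ B := by rwa [← Set.ncard_eq_toFinset_card']
  have htB : (supp t.val).toFinset.card ≤ 4 * B := by rwa [← Set.ncard_eq_toFinset_card']
  have hU : U.card ≤ B + T * (4 * B) + ∑ j ∈ J, (E (s j)).card := by
    refine (Finset.card_union_le _ _).trans (add_le_add ((Finset.card_union_le _ _).trans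
      (add_le_add hxB (c2.trans (Nat.mul_le_mul_left _ htB)))) ?_)
    refine Finset.card_biUnion_le.trans (Finset.sum_le_sum fun j _ => ?_)
    exact Finset.card_le_card_of_injOn (a (tj j)) (fun c hc => (Finset.mem_filter.1 hc).2)
      (hinj _).injOn
  have hE : T * ∑ j ∈ J, (E (s j)).card ≤ 4 * M * B := by
    have h0 : 0 < Fintype.card (unitGrp C (Y ∪ J)) := Fintype.card_pos
    refine Nat.le_of_mul_le_mul_left ?_ h0
    calc _ = T * (Fintype.card (unitGrp C (Y ∪ J)) * ∑ j ∈ J, (E (s j)).card) := by ring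
      _ ≤ T * (4 * M * ∑ g, (E g).card) := Nat.mul_le_mul_left _ s2
      _ = 4 * M * (T * ∑ g, (E g).card) := by ring
      _ ≤ 4 * M * ((supp x).toFinset.card * Fintype.card (unitGrp C (Y ∪ J))) :=
          Nat.mul_le_mul_left _ c3
      _ ≤ 4 * M * (B * Fintype.card (unitGrp C (Y ∪ J))) :=
          Nat.mul_le_mul_left _ (Nat.mul_le_mul_right _ hxB)
      _ = _ := by ring
  have hch := chain_star hP M C (Y : Set X) (J : Set X) b (U : Set C.P)
    (by rw [Set.ncard_coe_finset]; omega) (by rw [Set.ncard_coe_finset]; omega)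
    (Finset.disjoint_coe.2 hYJ.symm) hbY hbJ hx1
    (fun p hp => Finset.mem_coe.2 (Finset.mem_union_left _ (Finset.mem_union_left _
      (Set.mem_toFinset.2 hp)))) (by
      intro j hj
      obtain ⟨e1, e2⟩ := s1 j hj
      have hjY : j ∉ Y := fun e => Finset.disjoint_left.1 hYJ e hj
      have hsw : π (tj j) = Equiv.swap (π (s j) i0) j := by
        have e3 := Equiv.swap_apply_apply (π (s j)) i0 j0
        rw [e1] at e3
        rw [e3, map_mul, map_mul, map_inv]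
        rfl
      refine ⟨(tj j).1.1.val * x * (tj j).1.1.inv, ⇑(π (tj j))⁻¹ ⁻¹' (Y : Set X), ?_, ?_, ?_⟩
      · rw [hsw, Equiv.swap_inv]
        ext c
        simp only [Set.mem_diff, Set.mem_preimage, Finset.mem_coe, Set.mem_singleton_iff]
        constructor
        · rintro ⟨h1, h2⟩
          by_contra h3
          rw [Equiv.swap_apply_of_ne_of_ne (fun e => h2 (by rw [e]; exact e2)) h3] at h1
          exact h2 h1
        · rintro rfl
          rw [Equiv.swap_apply_right]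
          exact ⟨e2, hjY⟩
      · have h3 : ((tj j).1.1.val * x * (tj j).1.1.inv,
            gr (π (tj j)) * star (Y : Set X) b * gr (π (tj j))⁻¹) ∈ C.S :=
          C.S.mul_mem (C.S.mul_mem (tj j).2.1 hx1) (tj j)⁻¹.2.1
        rw [gr_conj, res_star] at h3
        have h4 : π (tj j) b = b := (tj j).2.2 b (by simp [hbY, hbJ])
        rwa [h4] at h3
      · intro p hp
        have h1 : a (tj j) p ∈ supp x := fun e => hp (conj_fix _ _ _ e)
        rw [Finset.mem_coe]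
        by_cases h2 : a (tj j) p = p
        · rw [h2] at h1
          exact Finset.mem_union_left _ (Finset.mem_union_left _ (Set.mem_toFinset.2 h1))
        by_cases h3 : a (tj j) p ∈ Cs
        · exact Finset.mem_union_left _ (Finset.mem_union_right _ (c1 _ _ h3))
        refine Finset.mem_union_right _ (Finset.mem_biUnion.2 ⟨j, hj, Finset.mem_filter.2
          ⟨Finset.mem_univ _, Finset.mem_filter.2 ⟨Finset.mem_sdiff.2
            ⟨Set.mem_toFinset.2 h1, h3⟩, Set.mem_toFinset.2 fun h4 => h2 ?_⟩⟩⟩)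
        apply hinj (tj j)
        have h5 : a τ (a (s j) (a (tj j) p)) = a (s j) (a (tj j) p) := (act_eq_self _ _).2 h4
        generalize a (tj j) p = c at h5 ⊢
        show a (s j * τ * (s j)⁻¹) c = c
        rw [ha, ha, h5]
        exact act_inv_act _ _)
  rw [Set.ncard_coe_finset] at hch
  calc T * (M * b0) ≤ T * (2 * (B + T * (4 * B) + ∑ j ∈ J, (E (s j)).card)) :=
        Nat.mul_le_mul_left _ (hch.trans (Nat.mul_le_mul_left _ hU))
    _ = 2 * (T * B + T * (T * (4 * B)) + T * ∑ j ∈ J, (E (s j)).card) := by ring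
    _ ≤ _ := by omega

theorem pb_step {h b0 : ℕ} (hh : 1 ≤ h) (hP : Pb h b0) : Pb (h + 2066) (2 * b0) := by
  classical
  intro X _ C hX a b hab x hx
  obtain ⟨C1, F, hG1, hF1, hF, hN⟩ := loc_generic C (i := id) Function.injective_id
  have m1 : (F x, star {a} b) ∈ C1.S := hF _ _ hx
  have n1 := hN _ _ _ (near_one_left x) det_one
  rw [hF1] at n1
  obtain ⟨C2, hG2, ht, hs⟩ := step_two (X' := (({a, b} : Set X)ᶜ : Set X)) C1 (supp x).ncard
    (fun c d hcd => by
      obtain ⟨y, h1, h2⟩ := all_edges hG1 hab m1 hcd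
      exact ⟨y, h1, h2.trans n1.supp_le⟩)
    Subtype.val_injective hab (fun c e => c.2 (Or.inl e)) (fun c e => c.2 (Or.inr e))
  have hc := card_compl ({a, b} : Set X)
  rw [Set.ncard_pair hab] at hc
  have := Fintype.ofFinite (({a, b} : Set X)ᶜ : Set X)
  have hc2 : h + 2064 ≤ (Finset.univ : Finset (({a, b} : Set X)ᶜ : Set X)).card := by
    rw [Finset.card_univ, ← Nat.card_eq_fintype_card]; omega
  obtain ⟨b', _⟩ : (Finset.univ : Finset (({a, b} : Set X)ᶜ : Set X)).Nonempty :=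
    Finset.card_pos.1 (by omega)
  obtain ⟨Y, hY1, hY2⟩ := Finset.exists_subset_card_eq (s := Finset.univ.erase b') (n := 1032)
    (by rw [Finset.card_erase_of_mem (Finset.mem_univ _)]; omega)
  obtain ⟨J, hJ1, hJ2⟩ := Finset.exists_subset_card_eq (s := Finset.univ.erase b' \ Y)
    (n := 1032) (by
      rw [Finset.card_sdiff_of_subset hY1, Finset.card_erase_of_mem (Finset.mem_univ _)]; omega)
  have := step_three hP C2 hG2 _ 1032 32 (by norm_num) ht hs Y J b' hY2 hJ2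
    (Finset.disjoint_left.2 fun c h1 h2 => (Finset.mem_sdiff.1 (hJ1 h2)).2 h1)
    (fun e => by simpa using hY1 e) (fun e => by simpa using hJ1 e) (by omega)
  omega

theorem pb_pow (k : ℕ) : Pb (1 + 2066 * k) (2 ^ k) := by
  induction k with
  | zero => exact pb_base _
  | succ k ih =>
    have := pb_step (by omega) ih
    rwa [pow_succ', show 1 + 2066 * (k + 1) = 1 + 2066 * k + 2066 by ring]

end Vale.Agent.P343
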